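import Vale.Agent.P032.H350.Surg

/-!
# P032: words with triple letters

`RawP X`: the axioms of a tie word except `two` and `three`, so a position may carry `0, 1` and one pair letter
(a special end).  A special position is passed with the free letter `1` (`0`) if its pair letter is
`2` (`3`); nothing is assumed about the letters near special positions.

`L1e`, `L1f`: some position has the letter `0` (`1`), a pair letter, and not the letter `1` (`0`).
`L2x`: at most one position `0|2` without `1` and at most one position `1|3` without `0` is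
impossible (special positions are not counted).
-/

open Set Filter Topology

noncomputable section

namespace Vale.Agent.P032.H361

open Vale.Agent.P032.Words

/-- the axioms of a tie word except `two` and `three` -/
structure RawP (X : Fin 4 → Set ℝ) : Prop where
  closed : ∀ l, IsClosed (X l)
  cover : ∀ u, ∃ l, u ∈ X l
  per : ∀ l u, u + 6 ∈ X l ↔ u ∈ X l
  anti : ∀ u, u ∈ X 2 → u + 3 ∉ X 3
  ac : ∀ u, u ∈ X 2 → u ∉ X 3
  own : ∀ u l, u ∈ X l → u + 1 ∈ X l → ∃ m, m ≠ l ∧ u ∈ X m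
  own' : ∀ u l, u ∈ X l → u + 1 ∈ X l → ∃ m, m ≠ l ∧ u + 1 ∈ X m
  swap : ∀ u l m, u ∈ X l → u + 1 ∈ X l → u ∈ X m → u + 1 ∈ X m → l = m
  dbl : ∀ u l m, l ≠ m → u ∈ X l → u + 1 ∈ X l → u + 1 ∈ X m → u + 2 ∈ X m →
    l.val < 2 ∧ m.val < 2

theorem rawP_of_preW {X : Fin 4 → Set ℝ} (h : H350.PreW X) : RawP X :=
  ⟨h.closed, h.cover, h.per, h.anti, h.ac, h.own, h.own', h.swap, h.dbl⟩

theorem rawP_of_pre {X : Fin 4 → Set ℝ} (h : H350.Pre X) : RawP X := rawP_of_preW h.preW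

variable {X : Fin 4 → Set ℝ}

/-- no good letter: a double contact -/
theorem RawP.dbl_of (w : RawP X) {u : ℝ} (h : ¬ ∃ l, Good X u l) :
    (u ∈ X 0 ∧ u ∈ X 1) ∧ ((u - 1 ∈ X 0 ∧ u + 1 ∈ X 1) ∨ (u - 1 ∈ X 1 ∧ u + 1 ∈ X 0)) := by
  have hs : ∀ l, u ∈ X l → u - 1 ∈ X l ∨ u + 1 ∈ X l := by
    intro l hl
    by_contra hc
    push Not at hc
    exact h ⟨l, hl, hc.2, hc.1⟩
  have e : u - 1 + 1 = u := by ring
  have e2 : u - 1 + 2 = u + 1 := by ring
  obtain ⟨l, hl⟩ := w.cover u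
  obtain ⟨m, hm, hmu⟩ : ∃ m, m ≠ l ∧ u ∈ X m := by
    rcases hs l hl with h1 | h1
    · have := w.own' (u - 1) l h1 (by rw [e]; exact hl)
      rw [e] at this; exact this
    · exact w.own u l hl h1
  have key : ∀ l m : Fin 4, l ≠ m → u ∈ X l → u ∈ X m → u - 1 ∈ X l → u + 1 ∈ X m →
      (u ∈ X 0 ∧ u ∈ X 1) ∧ ((u - 1 ∈ X 0 ∧ u + 1 ∈ X 1) ∨ (u - 1 ∈ X 1 ∧ u + 1 ∈ X 0)) := by
    intro l m hlm h1 h2 h3 h4
    have d := w.dbl (u - 1) l m hlm h3 (by rw [e]; exact h1) (by rw [e]; exact h2)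
      (by rw [e2]; exact h4)
    rcases val_lt_two d.1 d.2 hlm with ⟨rfl, rfl⟩ | ⟨rfl, rfl⟩
    · exact ⟨⟨h1, h2⟩, Or.inl ⟨h3, h4⟩⟩
    · exact ⟨⟨h2, h1⟩, Or.inr ⟨h3, h4⟩⟩
  rcases hs l hl with h1 | h1 <;> rcases hs m hmu with h2 | h2
  · exact absurd (w.swap (u - 1) m l h2 (by rw [e]; exact hmu) h1 (by rw [e]; exact hl)) hm
  · exact key l m hm.symm hl hmu h1 h2
  · exact key m l hm hmu hl h2 h1
  · exact absurd (w.swap u m l hmu h2 hl h1) hm

theorem RawP.lam_mem (w : RawP X) (u : ℝ) : u ∈ X (lamT X u) := by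
  by_cases h : ∃ l, Good X u l
  · exact (lamT_good h).1
  · have := w.dbl_of h
    unfold lamT lamF
    rw [dif_neg h]
    split_ifs
    · exact this.1.2
    · exact this.1.1

theorem RawP.lam_ne (w : RawP X) (u : ℝ) : lamT X u ≠ lamT X (u + 1) := by
  intro h
  by_cases h1 : ∃ l, Good X u l
  · exact (lamT_good h1).2.1 (h ▸ w.lam_mem (u + 1))
  by_cases h2 : ∃ l, Good X (u + 1) l
  · have := (lamT_good h2).2.2
    have e : u + 1 - 1 = u := by ring
    rw [e] at this
    exact this (h ▸ w.lam_mem u)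
  obtain ⟨⟨a0, a1⟩, -⟩ := w.dbl_of h1
  obtain ⟨⟨b0, b1⟩, -⟩ := w.dbl_of h2
  exact absurd (w.swap u 0 1 a0 b0 a1 b1) (by decide)

theorem RawP.lam_per (w : RawP X) (u : ℝ) : lamT X (u + 6) = lamT X u := by
  have h1 : ∀ l, u + 6 + 1 ∈ X l ↔ u + 1 ∈ X l := by
    intro l
    have : u + 6 + 1 = u + 1 + 6 := by ring
    rw [this, w.per]
  have h2 : ∀ l, u + 6 - 1 ∈ X l ↔ u - 1 ∈ X l := by
    intro l
    have : u + 6 - 1 = u - 1 + 6 := by ring
    rw [this, w.per]
  have hg : Good X (u + 6) = Good X u := by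
    funext l
    unfold Good
    rw [w.per, h1, h2]
  unfold lamT
  rw [hg, h1, h1, h2, h2]

theorem RawP.mem_add (w : RawP X) (u : ℝ) (k : Fin 6) (l : Fin 4) :
    u + ((k + 1).val : ℝ) ∈ X l ↔ u + (k.val : ℝ) + 1 ∈ X l := by
  by_cases hk : k = 5
  · subst hk
    have h1 : ((5 : Fin 6) + 1).val = 0 := rfl
    have h2 : (5 : Fin 6).val = 5 := rfl
    rw [h1, h2]
    have : u + ((5 : ℕ) : ℝ) + 1 = (u + ((0 : ℕ) : ℝ)) + 6 := by push_cast; ring
    rw [this, w.per]
  · have h1 : (k + 1).val = k.val + 1 := by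
      have : k.val ≠ 5 := fun h => hk (Fin.ext h)
      have h6 := k.isLt
      rw [Fin.val_add_one_of_lt]
      rw [Fin.lt_def]
      show k.val < 5
      omega
    rw [h1]
    have : u + (k.val : ℝ) + 1 = u + ((k.val + 1 : ℕ) : ℝ) := by push_cast; ring
    rw [this]

theorem RawP.mem_add3 (w : RawP X) (u : ℝ) (k : Fin 6) (l : Fin 4) :
    u + ((k + 3).val : ℝ) ∈ X l ↔ u + (k.val : ℝ) + 3 ∈ X l := by
  have e : k + 3 = k + 1 + 1 + 1 := by revert k; decide
  rw [e, w.mem_add]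
  have h1 := w.mem_add (u + 1) (k + 1) l
  have h2 := w.mem_add (u + 2) k l
  have e1 : u + ((k + 1 + 1).val : ℝ) + 1 = u + 1 + ((k + 1 + 1).val : ℝ) := by ring
  have e2 : u + 1 + ((k + 1).val : ℝ) + 1 = u + 2 + ((k + 1).val : ℝ) := by ring
  have e3 : u + 2 + (k.val : ℝ) + 1 = u + (k.val : ℝ) + 3 := by ring
  rw [e1, h1, e2, h2, e3]

theorem RawP.palT (w : RawP X) (u : ℝ) : PalT (palT X u) := by
  have h2 : ∀ k l, u + ((k + 1 + 1 : Fin 6).val : ℝ) ∈ X l ↔ u + (k.val : ℝ) + 2 ∈ X l := by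
    intro k l
    rw [w.mem_add]
    have e : u + ((k + 1).val : ℝ) + 1 = u + 1 + ((k + 1).val : ℝ) := by ring
    rw [e, w.mem_add]
    have e : u + 1 + (k.val : ℝ) + 1 = u + (k.val : ℝ) + 2 := by ring
    rw [e]
  refine ⟨?_, ?_, ?_, ?_⟩
  · intro k l a b
    exact w.own _ l a ((w.mem_add u k l).mp b)
  · intro k l a b
    obtain ⟨m, hm, h⟩ := w.own' _ l a ((w.mem_add u k l).mp b)
    exact ⟨m, hm, (w.mem_add u k m).mpr h⟩
  · intro k l m a b c d
    exact w.swap _ l m a ((w.mem_add u k l).mp b) c ((w.mem_add u k m).mp d)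
  · intro k l m hlm a b c d
    exact w.dbl _ l m hlm a ((w.mem_add u k l).mp b) ((w.mem_add u k m).mp c) ((h2 k m).mp d)

theorem RawP.leg (w : RawP X) (u : ℝ) (g : Hx) (h1 : ∀ k, Words.palT X u k (g k))
    (h2 : ∀ k, g k ≠ g (k + 1)) : Leg4 g := by
  refine ⟨h2, ?_⟩
  rintro k ⟨a, b⟩
  have h3 := h1 k
  have h4 := h1 (k + 3)
  rw [a] at h3
  rw [b] at h4
  exact w.anti _ h3 ((w.mem_add3 u k 3).mp h4)

/-- Near `u` only letters available at `u` occur. -/
theorem RawP.near (w : RawP X) (u : ℝ) :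
    ∀ᶠ v in 𝓝 u, ∀ k : Fin 6, ∀ l, v + (k.val : ℝ) ∈ X l → u + (k.val : ℝ) ∈ X l := by
  rw [eventually_all]
  intro k
  rw [eventually_all]
  intro l
  by_cases h : u + (k.val : ℝ) ∈ X l
  · exact Eventually.of_forall fun v _ => h
  · have hc : Continuous fun v : ℝ => v + (k.val : ℝ) := by fun_prop
    have := (hc.tendsto u).eventually ((w.closed l).isOpen_compl.mem_nhds h)
    filter_upwards [this] with v hv hv'
    exact absurd hv' hv

variable {free : Fin 4 → Fin 4 → Prop} {cmp : Hx → ℕ}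

/-- Two proper selections at `u`. -/
theorem RawP.cmp_eq (w : RawP X)
    (hstep : ∀ h k l, Leg4 h → Leg4 (Function.update h k l) → free (h k) l →
      cmp (Function.update h k l) = cmp h)
    (hrefl : ∀ x, free x x) (u : ℝ) {h h' : Hx} (hh : ∀ k, u + (k.val : ℝ) ∈ X (h k))
    (hh' : ∀ k, u + (k.val : ℝ) ∈ X (h' k)) (hp : ∀ k, h k ≠ h (k + 1))
    (hp' : ∀ k, h' k ≠ h' (k + 1)) (hf : ∀ k, free (h k) (h' k)) : cmp h = cmp h' :=
  (w.palT u).path hstep hrefl (w.leg u) _ h h' le_rfl hh hh' hp hp' hf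

/-- a pair letter at `v` is not the canonical letter of a neighbour -/
theorem RawP.pair_ne {v : ℝ} {x : Fin 4} (hx : x = 2 ∨ x = 3) (hv : v ∈ X x) :
    x ≠ lamT X (v + 1) ∧ x ≠ lamT X (v - 1) := by
  have key : ∀ u : ℝ, (∃ l, Good X u l) ∨ lamT X u = 0 ∨ lamT X u = 1 := by
    intro u
    by_cases hg : ∃ l, Good X u l
    · exact Or.inl hg
    · right
      by_cases hc : (u + 1 ∈ X 0 ∧ u + 1 ∈ X 2) ∨ (u - 1 ∈ X 0 ∧ u - 1 ∈ X 2)
      · exact Or.inr (lamT_one hg hc)
      · exact Or.inl (lamT_zero hg hc)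
  have n01 : x ≠ 0 ∧ x ≠ 1 := by rcases hx with rfl | rfl <;> decide
  constructor
  · intro h
    rcases key (v + 1) with hg | h0 | h1
    · have := (lamT_good hg).2.2
      rw [show v + 1 - 1 = v by ring] at this
      exact this (h ▸ hv)
    · exact n01.1 (h.trans h0)
    · exact n01.2 (h.trans h1)
  · intro h
    rcases key (v - 1) with hg | h0 | h1
    · have := (lamT_good hg).2.1
      rw [show v - 1 + 1 = v by ring] at this
      exact this (h ▸ hv)
    · exact n01.1 (h.trans h0)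
    · exact n01.2 (h.trans h1)

/-- Two neighbouring marks have no common letter. -/
theorem RawP.mark_mark (w : RawP X) {v : ℝ} {a b a' b' : Fin 4} (ht : Ty a b) (ht' : Ty a' b')
    (ha : v ∈ X a) (hb : v ∈ X b) (ha' : v + 1 ∈ X a') (hb' : v + 1 ∈ X b')
    {x x' : Fin 4} (hx : x = a ∨ x = b) (hx' : x' = a' ∨ x' = b') : x ≠ x' := by
  rcases ht with ⟨rfl, rfl⟩ | ⟨rfl, rfl⟩ | ⟨rfl, rfl⟩ | ⟨rfl, rfl⟩ <;>
    rcases ht' with ⟨rfl, rfl⟩ | ⟨rfl, rfl⟩ | ⟨rfl, rfl⟩ | ⟨rfl, rfl⟩ <;>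
    first
      | (exact absurd (w.swap v _ _ ha ha' hb hb') (by decide))
      | (exact absurd (w.swap v _ _ ha hb' hb ha') (by decide))
      | (rcases hx with rfl | rfl <;> rcases hx' with rfl | rfl <;> decide)


/-! ## Canonical letters -/

/-- a position with `0`, `1` and the pair letter `j` -/
def Trip (X : Fin 4 → Set ℝ) (j : Fin 4) (u : ℝ) : Prop := u ∈ X 0 ∧ u ∈ X 1 ∧ u ∈ X j

/-- one letter at each angle, neighbours different -/
structure Can (X : Fin 4 → Set ℝ) (L : ℝ → Fin 4) : Prop where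
  mem : ∀ u, u ∈ X (L u)
  ne : ∀ u, L u ≠ L (u + 1)
  per : ∀ u, L (u + 6) = L u

/-- the hexagon of letters -/
def stL (L : ℝ → Fin 4) (u : ℝ) : Hx := fun k => L (u + (k.val : ℝ))

variable {L : ℝ → Fin 4}

theorem Can.add (C : Can X L) (u : ℝ) (k : Fin 6) :
    L (u + ((k + 1).val : ℝ)) = L (u + (k.val : ℝ) + 1) := by
  by_cases hk : k = 5
  · subst hk
    have h1 : ((5 : Fin 6) + 1).val = 0 := rfl
    have h2 : (5 : Fin 6).val = 5 := rfl
    rw [h1, h2]
    have : u + ((5 : ℕ) : ℝ) + 1 = (u + ((0 : ℕ) : ℝ)) + 6 := by push_cast; ring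
    rw [this, C.per]
  · have h1 : (k + 1).val = k.val + 1 := by
      have : k.val ≠ 5 := fun h => hk (Fin.ext h)
      have h6 := k.isLt
      rw [Fin.val_add_one_of_lt]
      rw [Fin.lt_def]
      show k.val < 5
      omega
    rw [h1]
    have : u + (k.val : ℝ) + 1 = u + ((k.val + 1 : ℕ) : ℝ) := by push_cast; ring
    rw [this]

theorem Can.sub (C : Can X L) (u : ℝ) (k : Fin 6) :
    L (u + ((k + 1).val : ℝ) - 1) = L (u + (k.val : ℝ)) := by
  by_cases hk : k = 5
  · subst hk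
    have h1 : ((5 : Fin 6) + 1).val = 0 := rfl
    have h2 : (5 : Fin 6).val = 5 := rfl
    rw [h1, h2]
    have : u + ((5 : ℕ) : ℝ) = (u + ((0 : ℕ) : ℝ) - 1) + 6 := by push_cast; ring
    rw [this, C.per]
  · have h1 : (k + 1).val = k.val + 1 := by
      have : k.val ≠ 5 := fun h => hk (Fin.ext h)
      have h6 := k.isLt
      rw [Fin.val_add_one_of_lt]
      rw [Fin.lt_def]
      show k.val < 5
      omega
    rw [h1]
    have : u + ((k.val + 1 : ℕ) : ℝ) - 1 = u + (k.val : ℝ) := by push_cast; ring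
    rw [this]

theorem Can.st_mem (C : Can X L) (u : ℝ) (k : Fin 6) : u + (k.val : ℝ) ∈ X (stL L u k) :=
  C.mem _

theorem Can.st_ne (C : Can X L) (u : ℝ) (k : Fin 6) : stL L u k ≠ stL L u (k + 1) := by
  unfold stL
  rw [C.add]
  exact C.ne _

theorem Can.leg (C : Can X L) (w : RawP X) (u : ℝ) : Leg4 (stL L u) :=
  w.leg u _ (C.st_mem u) (C.st_ne u)

theorem Can.st_add_one (C : Can X L) (u : ℝ) : stL L (u + 1) = rot (stL L u) := by
  funext k
  show L (u + 1 + (k.val : ℝ)) = L (u + ((k + 1).val : ℝ))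
  rw [C.add]
  congr 1
  ring

/-- near `v` the canonical letter is free from the one at `v` -/
def FreeN (L : ℝ → Fin 4) (free : Fin 4 → Fin 4 → Prop) (v : ℝ) : Prop :=
  ∀ᶠ x in 𝓝 v, free (L x) (L v)

theorem tendsto_add_nhds (u c : ℝ) : Tendsto (fun v : ℝ => v + c) (𝓝 u) (𝓝 (u + c)) := by
  have : Continuous fun v : ℝ => v + c := by fun_prop
  exact this.tendsto u

/-- Local constancy at a point without non-free pairs. -/
theorem RawP.ev (w : RawP X) (C : Can X L)
    (hstep : ∀ h k l, Leg4 h → Leg4 (Function.update h k l) → free (h k) l →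
      cmp (Function.update h k l) = cmp h)
    (hrefl : ∀ x, free x x)
    {u : ℝ} (hfree : ∀ k : Fin 6, FreeN L free (u + (k.val : ℝ))) :
    ∀ᶠ v in 𝓝 u, cmp (stL L v) = cmp (stL L u) := by
  have h2 : ∀ᶠ v in 𝓝 u, ∀ k : Fin 6, free (stL L v k) (stL L u k) := by
    rw [eventually_all]
    intro k
    exact (tendsto_add_nhds u (k.val : ℝ)).eventually (hfree k)
  filter_upwards [w.near u, h2] with v hv hv2
  exact w.cmp_eq hstep hrefl u (fun k => hv k _ (C.st_mem v k)) (C.st_mem u)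
    (C.st_ne v) (C.st_ne u) hv2

/-- Constancy on a connected set without non-free pairs. -/
theorem RawP.const_Ioo (w : RawP X) (C : Can X L)
    (hstep : ∀ h k l, Leg4 h → Leg4 (Function.update h k l) → free (h k) l →
      cmp (Function.update h k l) = cmp h)
    (hrefl : ∀ x, free x x)
    {s : Set ℝ} (hs : IsPreconnected s)
    (hfree : ∀ u ∈ s, ∀ k : Fin 6, FreeN L free (u + (k.val : ℝ)))
    {u v : ℝ} (hu : u ∈ s) (hv : v ∈ s) : cmp (stL L u) = cmp (stL L v) := by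
  have hc : ContinuousOn (fun u => cmp (stL L u)) s := by
    intro x hx
    have h1 := w.ev C hstep hrefl (hfree x hx)
    have : Tendsto (fun u => cmp (stL L u)) (𝓝 x) (pure (cmp (stL L x))) := by
      rw [tendsto_pure]; exact h1
    exact (this.mono_left nhdsWithin_le_nhds).mono_right (pure_le_nhds _)
  exact hs.constant hc hu hv

/-- The value of `cmp` at the two ends of an open interval without non-free pairs. -/
theorem RawP.seg (w : RawP X) (C : Can X L)
    (hstep : ∀ h k l, Leg4 h → Leg4 (Function.update h k l) → free (h k) l →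
      cmp (Function.update h k l) = cmp h)
    (hrefl : ∀ x, free x x)
    {a b : ℝ} (hab : a < b)
    (hfree : ∀ u ∈ Ioo a b, ∀ k : Fin 6, FreeN L free (u + (k.val : ℝ)))
    {p q : ℕ} (hp : ∀ᶠ v in 𝓝[>] a, cmp (stL L v) = p)
    (hq : ∀ᶠ v in 𝓝[<] b, cmp (stL L v) = q) : p = q := by
  have h1 : ∀ᶠ v in 𝓝[>] a, v ∈ Ioo a b := Ioo_mem_nhdsGT hab
  have h2 : ∀ᶠ v in 𝓝[<] b, v ∈ Ioo a b := Ioo_mem_nhdsLT hab
  obtain ⟨x, hx1, hx2⟩ := (hp.and h1).exists
  obtain ⟨y, hy1, hy2⟩ := (hq.and h2).exists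
  rw [← hx1, ← hy1]
  exact w.const_Ioo C hstep hrefl isPreconnected_Ioo hfree hx2 hy2

/-- at a neighbour of a position with `0, 1` there is a good letter -/
theorem RawP.good_right (w : RawP X) {u : ℝ} (h0 : u ∈ X 0) (h1 : u ∈ X 1) :
    ∃ l, Good X (u + 1) l := by
  by_contra h
  obtain ⟨⟨a0, a1⟩, -⟩ := w.dbl_of h
  exact absurd (w.swap u 0 1 h0 a0 h1 a1) (by decide)

theorem RawP.good_left (w : RawP X) {u : ℝ} (h0 : u + 1 ∈ X 0) (h1 : u + 1 ∈ X 1) :
    ∃ l, Good X u l := by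
  by_contra h
  obtain ⟨⟨a0, a1⟩, -⟩ := w.dbl_of h
  exact absurd (w.swap u 0 1 a0 h0 a1 h1) (by decide)

theorem RawP.lam_right (w : RawP X) {u : ℝ} (h0 : u ∈ X 0) (h1 : u ∈ X 1) {x : Fin 4}
    (hx : u ∈ X x) : x ≠ lamT X (u + 1) := by
  intro he
  have h2 := (lamT_good (w.good_right h0 h1)).2.2
  rw [show u + 1 - 1 = u by ring, ← he] at h2
  exact h2 hx

theorem RawP.lam_left (w : RawP X) {u : ℝ} (h0 : u + 1 ∈ X 0) (h1 : u + 1 ∈ X 1) {x : Fin 4}
    (hx : u + 1 ∈ X x) : lamT X u ≠ x := by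
  intro he
  have h2 := (lamT_good (w.good_left h0 h1)).2.1
  rw [he] at h2
  exact h2 hx

/-! ## L1 -/

open Classical in
/-- the canonical letter for L1 -/
def n1 (X : Fin 4 → Set ℝ) (u : ℝ) : Fin 4 :=
  if Trip X 2 u ∨ Trip X 3 u then 1 else lamT X u

theorem RawP.can1 (w : RawP X) : Can X (n1 X) where
  mem := fun u => by
    unfold n1
    split_ifs with h
    · rcases h with h | h
      exacts [h.2.1, h.2.1]
    · exact w.lam_mem u
  ne := fun u => by
    unfold n1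
    split_ifs with h h' h'
    · exfalso
      have h1 : u ∈ X 0 ∧ u ∈ X 1 := by rcases h with h | h <;> exact ⟨h.1, h.2.1⟩
      have h2 : u + 1 ∈ X 0 ∧ u + 1 ∈ X 1 := by rcases h' with h | h <;> exact ⟨h.1, h.2.1⟩
      exact absurd (w.swap u 0 1 h1.1 h2.1 h1.2 h2.2) (by decide)
    · have h1 : u ∈ X 0 ∧ u ∈ X 1 := by rcases h with h | h <;> exact ⟨h.1, h.2.1⟩
      exact w.lam_right h1.1 h1.2 h1.2
    · have h2 : u + 1 ∈ X 0 ∧ u + 1 ∈ X 1 := by rcases h' with h | h <;> exact ⟨h.1, h.2.1⟩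
      exact w.lam_left h2.1 h2.2 h2.2
    · exact w.lam_ne u
  per := fun u => by
    have h : ∀ j, Trip X j (u + 6) = Trip X j u := by
      intro j
      unfold Trip
      rw [w.per, w.per, w.per]
    unfold n1
    rw [h, h, w.lam_per]

/-- **L1**: some position has the letter `0`, a pair letter and not the letter `1`. -/
theorem RawP.L1e (w : RawP X) : ∃ u, u ∈ X 0 ∧ (u ∈ X 2 ∨ u ∈ X 3) ∧ u ∉ X 1 := by
  by_contra hcon
  push Not at hcon
  have C := w.can1
  have hstep : ∀ (h : Fin 6 → Fin 4) k l, Leg4 h → Leg4 (Function.update h k l) →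
      (fun x y : Fin 4 => fr1 x.val y.val = true) (h k) l →
      (fun g => cN T1 (code g)) (Function.update h k l) = (fun g => cN T1 (code g)) h :=
    fun h k l h1 h2 h3 => step_of_chk chkFree1 h k l h1 h2 h3
  have hrefl : ∀ x : Fin 4, (fun x y : Fin 4 => fr1 x.val y.val = true) x x := by
    intro x; simp [fr1]
  have hfr : ∀ v : ℝ, FreeN (n1 X) (fun x y : Fin 4 => fr1 x.val y.val = true) v := by
    intro v
    have hn : ∀ᶠ x in 𝓝 v, v ∈ X (n1 X x) := by
      filter_upwards [w.near v] with x hx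
      have := hx 0 (n1 X x) (by
        have := C.mem x
        simpa using this)
      simpa using this
    filter_upwards [hn] with u hu
    revert hu
    generalize n1 X u = x
    intro hx
    show fr1 x.val (n1 X v).val = true
    by_cases h : Trip X 2 v ∨ Trip X 3 v
    · have e : n1 X v = 1 := by unfold n1; rw [if_pos h]
      rw [e]; clear hx; revert x; decide
    · have e : n1 X v = lamT X v := by unfold n1; rw [if_neg h]
      rw [e]
      have hy := w.lam_mem v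
      revert hy
      generalize lamT X v = y
      intro hy
      have a02 : v ∈ X 0 → v ∉ X 2 := fun h0 h2 => h (Or.inl ⟨h0, hcon v h0 (Or.inl h2), h2⟩)
      have a03 : v ∈ X 0 → v ∉ X 3 := fun h0 h2 => h (Or.inr ⟨h0, hcon v h0 (Or.inr h2), h2⟩)
      fin_cases x <;> fin_cases y <;> first
        | rfl
        | exact absurd hy (a02 hx)
        | exact absurd hy (a03 hx)
        | exact absurd hy (w.ac _ hx)
        | exact absurd hx (a02 hy)
        | exact absurd hx (a03 hy)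
        | exact absurd hx (w.ac _ hy)
  have key := w.const_Ioo C (cmp := fun g => cN T1 (code g)) hstep hrefl isPreconnected_univ
    (fun u _ k => hfr _) (mem_univ (0 : ℝ)) (mem_univ (0 + 1))
  rw [C.st_add_one] at key
  exact rot_of_chk chkRot1 (C.leg w 0) key.symm

/-! ## The jump -/

/-- The values of `cmp` on the two sides of a point with marks. -/
theorem RawP.jump (w : RawP X) (C : Can X L)
    (hstep : ∀ h k l, Leg4 h → Leg4 (Function.update h k l) → free (h k) l →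
      cmp (Function.update h k l) = cmp h)
    (hrefl : ∀ x, free x x)
    {u : ℝ} (M : Finset (Fin 6)) (a b : Fin 6 → Fin 4)
    (hM : ∀ k ∈ M, Mark X (a k) (b k) (u + (k.val : ℝ))) (hT : ∀ k ∈ M, Ty (a k) (b k))
    (hA : ∀ k ∈ M, ∀ x, x = a k ∨ x = b k →
      x ≠ L (u + (k.val : ℝ) + 1) ∧ x ≠ L (u + (k.val : ℝ) - 1))
    (hN : ∀ k ∉ M, FreeN L free (u + (k.val : ℝ))) :
    ∃ h : Finset (Fin 6) → Hx, (∀ S, Leg4 (h S)) ∧
      (∀ S, ∀ k ∈ M, k ∉ S → h S k = a k ∧ h (insert k S) = Function.update (h S) k (b k)) ∧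
      (∀ᶠ v in 𝓝[<] u, cmp (stL L v) = cmp (h ∅)) ∧
      (∀ᶠ v in 𝓝[>] u, cmp (stL L v) = cmp (h M)) ∧
      (∀ᶠ v in 𝓝[<] (u + 1), cmp (stL L v) = cmp (rot (h ∅))) := by
  classical
  set h : Finset (Fin 6) → Hx := fun S k =>
    if k ∈ M then (if k ∈ S then b k else a k) else stL L u k with hh
  have hsel : ∀ S k, k ∈ M → h S k = a k ∨ h S k = b k := by
    intro S k hk
    simp only [hh, if_pos hk]
    split_ifs
    · exact Or.inr rfl
    · exact Or.inl rfl
  have hav : ∀ S k, u + (k.val : ℝ) ∈ X (h S k) := by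
    intro S k
    simp only [hh]
    split_ifs with h1 h2
    · exact (hM k h1).mem_b
    · exact (hM k h1).mem_a
    · exact C.st_mem u k
  have hpr : ∀ S k, h S k ≠ h S (k + 1) := by
    intro S k
    by_cases h1 : k ∈ M
    · have m1 := hM k h1
      by_cases h2 : k + 1 ∈ M
      · have m2 := hM (k + 1) h2
        exact w.mark_mark (hT k h1) (hT _ h2) m1.mem_a m1.mem_b
          ((w.mem_add u k _).mp m2.mem_a) ((w.mem_add u k _).mp m2.mem_b) (hsel S k h1)
          (hsel S _ h2)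
      · have e : h S (k + 1) = L (u + (k.val : ℝ) + 1) := by
          simp only [hh, if_neg h2]
          unfold stL
          exact C.add u k
        rw [e]
        exact (hA k h1 _ (hsel S k h1)).1
    · have e0 : h S k = L (u + (k.val : ℝ)) := by
        simp only [hh, if_neg h1]
        rfl
      by_cases h2 : k + 1 ∈ M
      · have := (hA _ h2 _ (hsel S _ h2)).2
        rw [C.sub] at this
        rw [e0]
        exact this.symm
      · have e : h S (k + 1) = stL L u (k + 1) := by simp only [hh, if_neg h2]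
        have e' : h S k = stL L u k := by simp only [hh, if_neg h1]
        rw [e, e']
        exact C.st_ne u k
  have hleft : ∀ᶠ v in 𝓝[<] u, ∀ k, u + (k.val : ℝ) ∈ X (stL L v k) ∧ free (stL L v k) (h ∅ k) := by
    rw [eventually_all]
    intro k
    have h0 := (w.near u).filter_mono (nhdsWithin_le_nhds (s := Iio u))
    by_cases h1 : k ∈ M
    · have h2 := (tendsto_add_left u (k.val : ℝ)).eventually (hM k h1).left
      filter_upwards [h0, h2] with v hv hv2
      have hm := hv k _ (C.st_mem v k)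
      refine ⟨hm, ?_⟩
      have e : h ∅ k = a k := by simp only [hh, if_pos h1]; rfl
      rw [e]
      rcases (hM k h1).only _ hm with h3 | h3
      · rw [h3]; exact hrefl _
      · exact absurd (h3 ▸ C.st_mem v k) hv2
    · have h4 := (tendsto_add_nhds u (k.val : ℝ)).eventually (hN k h1)
      filter_upwards [h0, h4.filter_mono (nhdsWithin_le_nhds (s := Iio u))] with v hv hv4
      have hm := hv k _ (C.st_mem v k)
      have e : h ∅ k = L (u + (k.val : ℝ)) := by simp only [hh, if_neg h1]; rfl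
      rw [e]
      exact ⟨hm, hv4⟩
  have hright : ∀ᶠ v in 𝓝[>] u, ∀ k, u + (k.val : ℝ) ∈ X (stL L v k) ∧
      free (stL L v k) (h M k) := by
    rw [eventually_all]
    intro k
    have h0 := (w.near u).filter_mono (nhdsWithin_le_nhds (s := Ioi u))
    by_cases h1 : k ∈ M
    · have h2 := (tendsto_add_right u (k.val : ℝ)).eventually (hM k h1).right
      filter_upwards [h0, h2] with v hv hv2
      have hm := hv k _ (C.st_mem v k)
      refine ⟨hm, ?_⟩
      have e : h M k = b k := by simp only [hh, if_pos h1]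
      rw [e]
      rcases (hM k h1).only _ hm with h3 | h3
      · exact absurd (h3 ▸ C.st_mem v k) hv2
      · rw [h3]; exact hrefl _
    · have h4 := (tendsto_add_nhds u (k.val : ℝ)).eventually (hN k h1)
      filter_upwards [h0, h4.filter_mono (nhdsWithin_le_nhds (s := Ioi u))] with v hv hv4
      have hm := hv k _ (C.st_mem v k)
      have e : h M k = L (u + (k.val : ℝ)) := by simp only [hh, if_neg h1]; rfl
      rw [e]
      exact ⟨hm, hv4⟩
  refine ⟨h, fun S => w.leg u _ (hav S) (hpr S), ?_, ?_, ?_, ?_⟩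
  · intro S k hk hkS
    refine ⟨by simp only [hh]; rw [if_pos hk, if_neg hkS], ?_⟩
    funext j
    by_cases hj : j = k
    · subst hj
      rw [Function.update_self]
      simp only [hh]
      rw [if_pos hk, if_pos (Finset.mem_insert_self j S)]
    · rw [Function.update_of_ne hj]
      simp only [hh]
      by_cases hjM : j ∈ M
      · rw [if_pos hjM, if_pos hjM]
        by_cases hjS : j ∈ S
        · rw [if_pos hjS, if_pos (Finset.mem_insert_of_mem hjS)]
        · rw [if_neg hjS, if_neg]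
          rw [Finset.mem_insert]
          exact not_or.mpr ⟨hj, hjS⟩
      · rw [if_neg hjM, if_neg hjM]
  · filter_upwards [hleft] with v hv
    exact w.cmp_eq hstep hrefl u (fun k => (hv k).1) (hav ∅) (C.st_ne v) (hpr ∅)
      (fun k => (hv k).2)
  · filter_upwards [hright] with v hv
    exact w.cmp_eq hstep hrefl u (fun k => (hv k).1) (hav M) (C.st_ne v) (hpr M)
      (fun k => (hv k).2)
  · have h1 : ∀ᶠ v in 𝓝[<] (u + 1), ∀ k, u + (k.val : ℝ) ∈ X (stL L (v - 1) k) ∧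
        free (stL L (v - 1) k) (h ∅ k) := by
      have := tendsto_add_left (u + 1) (-1)
      have e : u + 1 + -1 = u := by ring
      rw [e] at this
      have h2 := this.eventually hleft
      filter_upwards [h2] with v hv
      exact hv
    filter_upwards [h1] with v hv
    have e : stL L v = rot (stL L (v - 1)) := by
      rw [← C.st_add_one]; congr 1; ring
    rw [e]
    have tr : ∀ g : Hx, (∀ k, u + (k.val : ℝ) ∈ X (g k)) → ∀ k : Fin 6,
        u + 1 + (k.val : ℝ) ∈ X (rot g k) := by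
      intro g hg k
      have := hg (k + 1)
      rw [w.mem_add] at this
      have e : u + 1 + (k.val : ℝ) = u + (k.val : ℝ) + 1 := by ring
      rw [e]
      exact this
    refine w.cmp_eq hstep hrefl (u + 1) (tr _ fun k => (hv k).1) (tr _ (hav ∅)) ?_ ?_ ?_
    · intro k; exact C.st_ne (v - 1) (k + 1)
    · intro k; exact hpr ∅ (k + 1)
    · intro k; exact (hv (k + 1)).2


/-! ## The canonical letter for L2 -/

/-- next to `v` only the letter `j` occurs -/
def Pin (X : Fin 4 → Set ℝ) (j : Fin 4) (v : ℝ) : Prop :=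
  ∀ᶠ x in 𝓝[≠] v, ∀ l, x ∈ X l → l = j

open Classical in
/-- the canonical letter for L2 -/
def pl (X : Fin 4 → Set ℝ) (u : ℝ) : Fin 4 :=
  if Trip X 2 u then 1 else if Trip X 3 u then 0 else
    if u ∈ X 0 ∧ u ∈ X 2 then 2 else if u ∈ X 1 ∧ u ∈ X 3 then 3 else lamT X u

theorem pl_cases (X : Fin 4 → Set ℝ) (u : ℝ) :
    (Trip X 2 u ∧ pl X u = 1) ∨ (Trip X 3 u ∧ pl X u = 0) ∨
      ((u ∈ X 0 ∧ u ∈ X 2 ∧ u ∉ X 1) ∧ pl X u = 2) ∨
      ((u ∈ X 1 ∧ u ∈ X 3 ∧ u ∉ X 0) ∧ pl X u = 3) ∨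
      ((¬ Trip X 2 u ∧ ¬ Trip X 3 u ∧ ¬ (u ∈ X 0 ∧ u ∈ X 2) ∧ ¬ (u ∈ X 1 ∧ u ∈ X 3)) ∧
        pl X u = lamT X u) := by
  unfold pl
  by_cases h2 : Trip X 2 u
  · exact Or.inl ⟨h2, if_pos h2⟩
  by_cases h3 : Trip X 3 u
  · exact Or.inr (Or.inl ⟨h3, by rw [if_neg h2, if_pos h3]⟩)
  by_cases h4 : u ∈ X 0 ∧ u ∈ X 2
  · exact Or.inr (Or.inr (Or.inl ⟨⟨h4.1, h4.2, fun h => h2 ⟨h4.1, h, h4.2⟩⟩, by
      rw [if_neg h2, if_neg h3, if_pos h4]⟩))
  by_cases h5 : u ∈ X 1 ∧ u ∈ X 3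
  · exact Or.inr (Or.inr (Or.inr (Or.inl ⟨⟨h5.1, h5.2, fun h => h3 ⟨h, h5.1, h5.2⟩⟩, by
      rw [if_neg h2, if_neg h3, if_neg h4, if_pos h5]⟩)))
  · exact Or.inr (Or.inr (Or.inr (Or.inr ⟨⟨h2, h3, h4, h5⟩, by
      rw [if_neg h2, if_neg h3, if_neg h4, if_neg h5]⟩)))

theorem RawP.can2 (w : RawP X) : Can X (pl X) where
  mem := fun u => by
    rcases pl_cases X u with ⟨h, e⟩ | ⟨h, e⟩ | ⟨h, e⟩ | ⟨h, e⟩ | ⟨-, e⟩ <;> rw [e]
    · exact h.2.1
    · exact h.1
    · exact h.2.1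
    · exact h.2.1
    · exact w.lam_mem u
  ne := fun u => by
    have s01 : u ∈ X 0 → u ∈ X 1 → u + 1 ∈ X 0 → u + 1 ∈ X 1 → False := fun a b c d =>
      absurd (w.swap u 0 1 a c b d) (by decide)
    have s02 : u ∈ X 0 → u ∈ X 2 → u + 1 ∈ X 0 → u + 1 ∈ X 2 → False := fun a b c d =>
      absurd (w.swap u 0 2 a c b d) (by decide)
    have s13 : u ∈ X 1 → u ∈ X 3 → u + 1 ∈ X 1 → u + 1 ∈ X 3 → False := fun a b c d =>
      absurd (w.swap u 1 3 a c b d) (by decide)
    have e1 : u + 1 - 1 = u := by ring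
    rcases pl_cases X u with ⟨h, e⟩ | ⟨h, e⟩ | ⟨h, e⟩ | ⟨h, e⟩ | ⟨h, e⟩ <;>
      rcases pl_cases X (u + 1) with ⟨h', e'⟩ | ⟨h', e'⟩ | ⟨h', e'⟩ | ⟨h', e'⟩ | ⟨h', e'⟩ <;>
      rw [e, e']
    · exact (s01 h.1 h.2.1 h'.1 h'.2.1).elim
    · exact (s01 h.1 h.2.1 h'.1 h'.2.1).elim
    · exact (s02 h.1 h.2.2 h'.1 h'.2.1).elim
    · decide
    · exact w.lam_right h.1 h.2.1 h.2.1
    · exact (s01 h.1 h.2.1 h'.1 h'.2.1).elim
    · exact (s01 h.1 h.2.1 h'.1 h'.2.1).elim
    · decide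
    · exact (s13 h.2.1 h.2.2 h'.1 h'.2.1).elim
    · exact w.lam_right h.1 h.2.1 h.1
    · exact (s02 h.1 h.2.1 h'.1 h'.2.2).elim
    · decide
    · exact (s02 h.1 h.2.1 h'.1 h'.2.1).elim
    · decide
    · exact (RawP.pair_ne (Or.inl rfl) h.2.1).1
    · decide
    · exact (s13 h.1 h.2.1 h'.2.1 h'.2.2).elim
    · decide
    · exact (s13 h.1 h.2.1 h'.1 h'.2.1).elim
    · exact (RawP.pair_ne (Or.inr rfl) h.2.1).1
    · exact w.lam_left h'.1 h'.2.1 h'.2.1
    · exact w.lam_left h'.1 h'.2.1 h'.1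
    · have := (RawP.pair_ne (v := u + 1) (x := 2) (Or.inl rfl) h'.2.1).2
      rw [e1] at this
      exact this.symm
    · have := (RawP.pair_ne (v := u + 1) (x := 3) (Or.inr rfl) h'.2.1).2
      rw [e1] at this
      exact this.symm
    · exact w.lam_ne u
  per := fun u => by
    have h : ∀ j, Trip X j (u + 6) = Trip X j u := by
      intro j
      unfold Trip
      rw [w.per, w.per, w.per]
    unfold pl
    rw [h, h, w.lam_per, w.per, w.per, w.per, w.per]

theorem RawP.near_pl (w : RawP X) (v : ℝ) : ∀ᶠ x in 𝓝 v, v ∈ X (pl X x) := by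
  filter_upwards [w.near v] with x hx
  have := hx 0 (pl X x) (by
    have := w.can2.mem x
    simpa using this)
  simpa using this

theorem Fr_one {x : Fin 4} (h : x ≠ 3) : Fr x 1 := by
  unfold Fr; revert h; revert x; decide

theorem Fr_zero {x : Fin 4} (h : x ≠ 2) : Fr x 0 := by
  unfold Fr; revert h; revert x; decide

theorem RawP.freeN_pl (w : RawP X) {v : ℝ} (h02 : v ∈ X 0 → v ∈ X 2 → v ∉ X 1 → Pin X 2 v)
    (h13 : v ∈ X 1 → v ∈ X 3 → v ∉ X 0 → Pin X 3 v) : FreeN (pl X) Fr v := by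
  have pin : ∀ j : Fin 4, Pin X j v → pl X v = j → FreeN (pl X) Fr v := by
    intro j hj hv
    have h1 : ∀ᶠ x in 𝓝 v, x ≠ v → ∀ l, x ∈ X l → l = j := by
      have := eventually_nhdsWithin_iff.1 hj
      exact this
    filter_upwards [h1] with x hx
    by_cases hxv : x = v
    · rw [hxv]; exact Fr.refl _
    · rw [hv, hx hxv _ (w.can2.mem x)]; exact Fr.refl _
  rcases pl_cases X v with ⟨h, e⟩ | ⟨h, e⟩ | ⟨h, e⟩ | ⟨h, e⟩ | ⟨h, e⟩
  · filter_upwards [w.near_pl v] with x hx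
    rw [e]
    refine Fr_one fun h3 => ?_
    rw [h3] at hx
    exact w.ac _ h.2.2 hx
  · filter_upwards [w.near_pl v] with x hx
    rw [e]
    refine Fr_zero fun h3 => ?_
    rw [h3] at hx
    exact w.ac _ hx h.2.2
  · exact pin 2 (h02 h.1 h.2.1 h.2.2) e
  · exact pin 3 (h13 h.1 h.2.1 h.2.2) e
  · filter_upwards [w.near_pl v] with x hx
    rw [e]
    rcases nonfree w.ac hx (w.lam_mem v) with h1 | h1 | h1
    · exact h1
    · exact absurd h1 h.2.2.1
    · exact absurd h1 h.2.2.2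

/-- the neighbours do not carry both letters `0, 1` -/
def N01 (X : Fin 4 → Set ℝ) (v : ℝ) : Prop :=
  ¬ (v + 1 ∈ X 0 ∧ v + 1 ∈ X 1) ∧ ¬ (v - 1 ∈ X 0 ∧ v - 1 ∈ X 1)

theorem RawP.adj_lam (w : RawP X) {v : ℝ} (hn : N01 X v) {x : Fin 4} (hx : v ∈ X x) :
    x ≠ lamT X (v + 1) ∧ x ≠ lamT X (v - 1) := by
  constructor
  · intro h
    have hg : ∃ l, Good X (v + 1) l := by
      by_contra hc
      exact hn.1 (w.dbl_of hc).1
    have := (lamT_good hg).2.2
    rw [show v + 1 - 1 = v by ring] at this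
    exact this (h ▸ hx)
  · intro h
    have hg : ∃ l, Good X (v - 1) l := by
      by_contra hc
      exact hn.2 (w.dbl_of hc).1
    have := (lamT_good hg).2.1
    rw [show v - 1 + 1 = v by ring] at this
    exact this (h ▸ hx)

/-- the letters of an end `0|2` -/
theorem RawP.adjV (w : RawP X) {v : ℝ} (h0 : v ∈ X 0) (h2 : v ∈ X 2) (hn : N01 X v) {x : Fin 4}
    (hx : x = 0 ∨ x = 2) : x ≠ pl X (v + 1) ∧ x ≠ pl X (v - 1) := by
  have e1 : v - 1 + 1 = v := by ring
  have key := w.adj_lam hn (x := x) (by rcases hx with rfl | rfl; exacts [h0, h2])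
  constructor
  · rcases pl_cases X (v + 1) with ⟨h, e⟩ | ⟨h, e⟩ | ⟨h, e⟩ | ⟨h, e⟩ | ⟨h, e⟩ <;> rw [e]
    · exact absurd ⟨h.1, h.2.1⟩ hn.1
    · exact absurd ⟨h.1, h.2.1⟩ hn.1
    · exact absurd (w.swap v 0 2 h0 h.1 h2 h.2.1) (by decide)
    · rcases hx with rfl | rfl <;> decide
    · exact key.1
  · rcases pl_cases X (v - 1) with ⟨h, e⟩ | ⟨h, e⟩ | ⟨h, e⟩ | ⟨h, e⟩ | ⟨h, e⟩ <;> rw [e]
    · exact absurd ⟨h.1, h.2.1⟩ hn.2
    · exact absurd ⟨h.1, h.2.1⟩ hn.2
    · exact absurd (w.swap (v - 1) 0 2 h.1 (by rw [e1]; exact h0) h.2.1 (by rw [e1]; exact h2))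
        (by decide)
    · rcases hx with rfl | rfl <;> decide
    · exact key.2

theorem RawP.adjQ (w : RawP X) {v : ℝ} (h1 : v ∈ X 1) (h3 : v ∈ X 3) (hn : N01 X v) {x : Fin 4}
    (hx : x = 1 ∨ x = 3) : x ≠ pl X (v + 1) ∧ x ≠ pl X (v - 1) := by
  have e1 : v - 1 + 1 = v := by ring
  have key := w.adj_lam hn (x := x) (by rcases hx with rfl | rfl; exacts [h1, h3])
  constructor
  · rcases pl_cases X (v + 1) with ⟨h, e⟩ | ⟨h, e⟩ | ⟨h, e⟩ | ⟨h, e⟩ | ⟨h, e⟩ <;> rw [e]
    · exact absurd ⟨h.1, h.2.1⟩ hn.1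
    · exact absurd ⟨h.1, h.2.1⟩ hn.1
    · rcases hx with rfl | rfl <;> decide
    · exact absurd (w.swap v 1 3 h1 h.1 h3 h.2.1) (by decide)
    · exact key.1
  · rcases pl_cases X (v - 1) with ⟨h, e⟩ | ⟨h, e⟩ | ⟨h, e⟩ | ⟨h, e⟩ | ⟨h, e⟩ <;> rw [e]
    · exact absurd ⟨h.1, h.2.1⟩ hn.2
    · exact absurd ⟨h.1, h.2.1⟩ hn.2
    · rcases hx with rfl | rfl <;> decide
    · exact absurd (w.swap (v - 1) 1 3 h.1 (by rw [e1]; exact h1) h.2.1 (by rw [e1]; exact h3))
        (by decide)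
    · exact key.2

/-- Passing a point with marks of type `f|C` at the positions of `L`. -/
theorem RawP.jumpQ (w : RawP X) {u : ℝ} {L : List (Fin 6)} (hL : L.Nodup)
    (hM : ∀ k ∈ L, QMark X (u + (k.val : ℝ)))
    (hA : ∀ k ∈ L, N01 X (u + (k.val : ℝ)))
    (hN : ∀ k ∉ L, FreeN (pl X) Fr (u + (k.val : ℝ)))
    {p : ℕ} (hp : ∀ᶠ v in 𝓝[<] u, cp (stL (pl X) v) = p) :
    ∃ q, (∀ᶠ v in 𝓝[>] u, cp (stL (pl X) v) = q) ∧ Reach L p q := by
  classical
  have hc : ∀ k : Fin 6, ∃ ab : Fin 4 × Fin 4, k ∈ L → Mark X ab.1 ab.2 (u + (k.val : ℝ)) ∧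
      ((ab.1 = 1 ∧ ab.2 = 3) ∨ (ab.1 = 3 ∧ ab.2 = 1)) := by
    intro k
    by_cases hk : k ∈ L
    · rcases hM k hk with h | h
      · exact ⟨(1, 3), fun _ => ⟨h, Or.inl ⟨rfl, rfl⟩⟩⟩
      · exact ⟨(3, 1), fun _ => ⟨h, Or.inr ⟨rfl, rfl⟩⟩⟩
    · exact ⟨(0, 0), fun h => absurd h hk⟩
  choose ab hab using hc
  obtain ⟨h, hleg, hins, hl, hr, -⟩ := w.jump w.can2 (free := Fr) (cmp := cp) cp_step Fr.refl L.toFinset
    (fun k => (ab k).1) (fun k => (ab k).2)
    (fun k hk => (hab k (List.mem_toFinset.mp hk)).1)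
    (fun k hk => Or.inr (Or.inr (hab k (List.mem_toFinset.mp hk)).2))
    (fun k hk x hx => by
      have hk' := List.mem_toFinset.mp hk
      have m := (hab k hk').1
      rcases (hab k hk').2 with ⟨e1, e2⟩ | ⟨e1, e2⟩
      · rw [e1, e2] at m hx
        exact w.adjQ m.mem_a m.mem_b (hA k hk') hx
      · rw [e1, e2] at m hx
        exact w.adjQ m.mem_b m.mem_a (hA k hk') hx.symm)
    (fun k hk => hN k fun h' => hk (List.mem_toFinset.mpr h'))
  refine ⟨_, hr, ?_⟩
  have e : p = cp (h ∅) := by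
    obtain ⟨v, h1, h2⟩ := (hp.and hl).exists
    rw [← h1, h2]
  have := reach_list hleg hins L ∅ hL (fun k hk => ⟨List.mem_toFinset.mpr hk,
    Finset.notMem_empty k, (hab k hk).2⟩)
  rw [foldl_insert, Finset.empty_union] at this
  rw [e]
  exact this

/-- Passing the mark `V` of type `e|A` and marks of type `f|C` at the positions of `L`. -/
theorem RawP.jumpV (w : RawP X) {u : ℝ} {L : List (Fin 6)} (hL : L.Nodup)
    (hL0 : (0 : Fin 6) ∉ L) (hV : VMark X u) (hAV : N01 X u)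
    (hM : ∀ k ∈ L, QMark X (u + (k.val : ℝ)))
    (hA : ∀ k ∈ L, N01 X (u + (k.val : ℝ)))
    (hN : ∀ k ∉ L, k ≠ 0 → FreeN (pl X) Fr (u + (k.val : ℝ))) :
    ∃ p q F, (∀ᶠ v in 𝓝[>] u, cp (stL (pl X) v) = q) ∧ (∀ᶠ v in 𝓝[<] (u + 1), cp (stL (pl X) v) = F) ∧
      p < 20 ∧ F < 20 ∧ relN vr p F = true ∧ Reach L p q := by
  classical
  have hc : ∀ k : Fin 6, ∃ ab : Fin 4 × Fin 4, k ∈ L → Mark X ab.1 ab.2 (u + (k.val : ℝ)) ∧
      ((ab.1 = 1 ∧ ab.2 = 3) ∨ (ab.1 = 3 ∧ ab.2 = 1)) := by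
    intro k
    by_cases hk : k ∈ L
    · rcases hM k hk with h | h
      · exact ⟨(1, 3), fun _ => ⟨h, Or.inl ⟨rfl, rfl⟩⟩⟩
      · exact ⟨(3, 1), fun _ => ⟨h, Or.inr ⟨rfl, rfl⟩⟩⟩
    · exact ⟨(0, 0), fun h => absurd h hk⟩
  choose ab hab using hc
  have hcV : ∃ ab : Fin 4 × Fin 4, Mark X ab.1 ab.2 u ∧
      ((ab.1 = 0 ∧ ab.2 = 2) ∨ (ab.1 = 2 ∧ ab.2 = 0)) := by
    rcases hV with h | h
    · exact ⟨(0, 2), h, Or.inl ⟨rfl, rfl⟩⟩
    · exact ⟨(2, 0), h, Or.inr ⟨rfl, rfl⟩⟩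
  obtain ⟨av, hav, hav2⟩ := hcV
  have e0 : u + ((0 : Fin 6).val : ℝ) = u := by simp
  obtain ⟨h, hleg, hins, hl, hr, hF⟩ := w.jump w.can2 (free := Fr) (cmp := cp) cp_step Fr.refl
    (insert 0 L.toFinset)
    (fun k => if k = 0 then av.1 else (ab k).1) (fun k => if k = 0 then av.2 else (ab k).2)
    (by
      intro k hk
      by_cases h0 : k = 0
      · subst h0
        rw [e0, if_pos rfl, if_pos rfl]
        exact hav
      · rw [if_neg h0, if_neg h0]
        rcases Finset.mem_insert.mp hk with h' | h'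
        · exact absurd h' h0
        · exact (hab k (List.mem_toFinset.mp h')).1)
    (by
      intro k hk
      by_cases h0 : k = 0
      · rw [if_pos h0, if_pos h0]
        rcases hav2 with h1 | h1
        · exact Or.inl h1
        · exact Or.inr (Or.inl h1)
      · rw [if_neg h0, if_neg h0]
        rcases Finset.mem_insert.mp hk with h' | h'
        · exact absurd h' h0
        · exact Or.inr (Or.inr (hab k (List.mem_toFinset.mp h')).2))
    (by
      intro k hk x hx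
      by_cases h0 : k = 0
      · subst h0
        rw [if_pos rfl, if_pos rfl] at hx
        rw [e0]
        rcases hav2 with ⟨e1, e2⟩ | ⟨e1, e2⟩
        · rw [e1, e2] at hav hx
          exact w.adjV hav.mem_a hav.mem_b hAV hx
        · rw [e1, e2] at hav hx
          exact w.adjV hav.mem_b hav.mem_a hAV hx.symm
      · rw [if_neg h0, if_neg h0] at hx
        rcases Finset.mem_insert.mp hk with h' | h'
        · exact absurd h' h0
        have hk' := List.mem_toFinset.mp h'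
        have m := (hab k hk').1
        rcases (hab k hk').2 with ⟨e1, e2⟩ | ⟨e1, e2⟩
        · rw [e1, e2] at m hx
          exact w.adjQ m.mem_a m.mem_b (hA k hk') hx
        · rw [e1, e2] at m hx
          exact w.adjQ m.mem_b m.mem_a (hA k hk') hx.symm)
    (by
      intro k hk
      rw [Finset.mem_insert, not_or, List.mem_toFinset] at hk
      exact hN k hk.2 hk.1)
  obtain ⟨e1, e2⟩ := hins ∅ 0 (Finset.mem_insert_self _ _) (Finset.notMem_empty _)
  rw [if_pos rfl] at e1 e2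
  refine ⟨cp (h (insert 0 ∅)), _, _, hr, hF, cp_lt (hleg _), ?_, ?_, ?_⟩
  · -- legality of the rotated hexagon
    have : Leg4 (rot (h ∅)) := by
      obtain ⟨ha, hb⟩ := hleg ∅
      refine ⟨fun k => ha (k + 1), fun k => ?_⟩
      have := hb (k + 1)
      unfold rot
      have e : k + 3 + 1 = k + 1 + 3 := add_right_comm k 3 1
      rw [e]
      exact this
    exact cp_lt this
  · have hl2 := hleg (insert 0 ∅)
    rw [e2] at hl2 ⊢
    exact vr_step (hleg ∅) hl2 e1 hav2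
  · have := reach_list hleg hins L (insert 0 ∅) hL (fun k hk => by
      have hk0 : k ≠ 0 := fun h' => hL0 (h' ▸ hk)
      refine ⟨Finset.mem_insert_of_mem (List.mem_toFinset.mpr hk), ?_, ?_⟩
      · rw [Finset.mem_insert, not_or]
        exact ⟨hk0, Finset.notMem_empty k⟩
      · rw [if_neg hk0, if_neg hk0]
        exact (hab k hk).2)
    rw [foldl_insert] at this
    have e : (insert 0 ∅ : Finset (Fin 6)) ∪ L.toFinset = insert 0 L.toFinset := by
      ext j; simp [Finset.mem_insert]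
    rw [e] at this
    exact this


/-! ## The facts L2 and LQ -/

/-- **L2**: exactly one real end `0|2` and exactly one real end `1|3` is impossible. -/
theorem RawP.L2aux (w : RawP X) {V : ℝ} (hV : VMark X V) (nV : N01 X V)
    (hVu : ∀ u, u ∈ X 0 → u ∈ X 2 → u ∉ X 1 → Pin X 2 u ∨ ∃ n : ℤ, u = V + 6 * n)
    {k : Fin 6} {r : ℝ} (hr0 : 0 ≤ r) (hr1 : r < 1) (hQ : QMark X (V + r + (k.val : ℝ)))
    (nQ : N01 X (V + r + (k.val : ℝ)))
    (hQu : ∀ u, u ∈ X 1 → u ∈ X 3 → u ∉ X 0 →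
      Pin X 3 u ∨ ∃ n : ℤ, u = V + r + (k.val : ℝ) + 6 * n) : False := by
  have hfree : ∀ (s : ℝ), 0 ≤ s → s < 1 → ∀ (j : Fin 6),
      ¬ (s = 0 ∧ j = 0) → ¬ (s = r ∧ j = k) → FreeN (pl X) Fr (V + s + (j.val : ℝ)) := by
    intro s hs0 hs1 j n1 n2
    refine w.freeN_pl ?_ ?_
    · intro h0 h2 h1
      rcases hVu _ h0 h2 h1 with h | ⟨n, hn⟩
      · exact h
      have : s + (j.val : ℝ) = 0 + ((0 : Fin 6).val : ℝ) + 6 * (n : ℝ) := by
        have : (((0 : Fin 6).val : ℕ) : ℝ) = 0 := by simp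
        rw [this]; linarith
      exact absurd (eq_of_mod hs0 hs1 le_rfl one_pos this) n1
    · intro h1 h3 h0
      rcases hQu _ h1 h3 h0 with h | ⟨n, hn⟩
      · exact h
      exact absurd (eq_of_mod hs0 hs1 hr0 hr1 (by linarith)) n2
  have hio : ∀ a b : ℝ, 0 ≤ a → b ≤ 1 → (∀ t ∈ Ioo a b, t ≠ r) →
      ∀ u ∈ Ioo (V + a) (V + b), ∀ j : Fin 6, FreeN (pl X) Fr (u + (j.val : ℝ)) := by
    intro a b ha hb hab u hu j
    have hu1 : a < u - V := by linarith [hu.1]
    have hu2 : u - V < b := by linarith [hu.2]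
    have hn := hab (u - V) ⟨hu1, hu2⟩
    have e : V + (u - V) = u := by ring
    have := hfree (u - V) (by linarith) (by linarith) j (fun h => by linarith [h.1])
      (fun h => hn h.1)
    rw [e] at this
    exact this
  have hk0 : ¬ (r = 0 ∧ k = 0) := by
    rintro ⟨h1, h2⟩
    subst h2
    have e : V + r + (((0 : Fin 6).val : ℕ) : ℝ) = V := by rw [h1]; simp
    rw [e] at hQ
    have hV0 : V ∈ X 0 := by rcases hV with h | h; exacts [h.mem_a, h.mem_b]
    rcases hQ with h | h <;> rcases h.only _ hV0 with h' | h' <;> exact absurd h' (by decide)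
  rcases eq_or_lt_of_le hr0 with h0 | h0
  · -- tie
    subst h0
    have hkne : k ≠ 0 := fun h => hk0 ⟨rfl, h⟩
    rw [add_zero] at hQ nQ
    obtain ⟨p, q, F, hq, hF, hp20, hF20, hvr, hre⟩ := w.jumpV (L := [k]) (u := V) (by simp)
      (by simpa using fun h => hkne h.symm) hV nV
      (by intro j hj; rw [List.mem_singleton] at hj; subst hj; exact hQ)
      (by intro j hj; rw [List.mem_singleton] at hj; subst hj; exact nQ)
      (by
        intro j hj hj0
        rw [List.mem_singleton] at hj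
        have := hfree 0 le_rfl one_pos j (fun h => hj0 h.2) (fun h => hj h.2)
        rw [add_zero] at this
        exact this)
    have := w.seg w.can2 (free := Fr) (cmp := cp) cp_step Fr.refl (a := V) (b := V + 1)
      (by linarith)
      (by
        have := hio 0 1 le_rfl le_rfl (fun t ht => ht.1.ne')
        rw [add_zero] at this
        exact this) hq hF
    subst this
    exact no_one hp20 hF20 hvr hre
  · obtain ⟨p, q, F, hq, hF, hp20, hF20, hvr, hre⟩ := w.jumpV (L := []) (u := V) (by simp)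
      (by simp) hV nV (by intro j hj; simp at hj) (by intro j hj; simp at hj)
      (by
        intro j _ hj0
        have := hfree 0 le_rfl one_pos j (fun h => hj0 h.2) (fun h => h0.ne h.1)
        rw [add_zero] at this
        exact this)
    have hpq : p = q := hre
    have hl : ∀ᶠ v in 𝓝[<] (V + r), cp (stL (pl X) v) = q := by
      have h1 : ∀ᶠ v in 𝓝[<] (V + r), v ∈ Ioo V (V + r) := Ioo_mem_nhdsLT (by linarith)
      have h2 : ∀ᶠ v in 𝓝[>] V, v ∈ Ioo V (V + r) := Ioo_mem_nhdsGT (by linarith)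
      obtain ⟨x, hx1, hx2⟩ := (hq.and h2).exists
      filter_upwards [h1] with v hv
      rw [← hx1]
      refine w.const_Ioo w.can2 (free := Fr) (cmp := cp) cp_step Fr.refl (isPreconnected_Ioo) ?_
        hv hx2
      have := hio 0 r le_rfl hr1.le (fun t ht => ht.2.ne)
      rw [add_zero] at this
      exact this
    obtain ⟨q2, hq2, hre2⟩ := w.jumpQ (L := [k]) (u := V + r) (by simp)
      (by intro j hj; rw [List.mem_singleton] at hj; subst hj; exact hQ)
      (by intro j hj; rw [List.mem_singleton] at hj; subst hj; exact nQ)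
      (by
        intro j hj
        rw [List.mem_singleton] at hj
        exact hfree r hr0 hr1 j (fun h => h0.ne' h.1) (fun h => hj h.2)) hl
    have := w.seg w.can2 (free := Fr) (cmp := cp) cp_step Fr.refl (a := V + r) (b := V + 1)
      (by linarith) (hio r 1 hr0 le_rfl (fun t ht => ht.1.ne')) hq2 hF
    subst this
    subst hpq
    exact no_one hp20 hF20 hvr hre2

/-- the table has no fixed component at a single end -/
theorem chkSelf : ((List.range 4096).all fun n => !legN n ||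
    ((!(dg n 0 == 1) || !legN (upd n 0 3) || !(cN T2 (upd n 0 3) == cN T2 (rotN n))) &&
     (!(dg n 0 == 3) || !legN (upd n 0 1) || !(cN T2 (upd n 0 1) == cN T2 (rotN n))))) = true := by
  decide +kernel

theorem chkRot2 : chkRot T2 = true := by decide +kernel

theorem self_step {h : Hx} {a b : Fin 4} (h1 : Leg4 h)
    (h2 : Leg4 (Function.update h 0 b)) (hk : h 0 = a) (hab : (a = 1 ∧ b = 3) ∨ (a = 3 ∧ b = 1)) :
    cp (Function.update h 0 b) ≠ cp (rot h) := by
  have c := all_range chkSelf (code_lt h)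
  rw [legN_code h1, Bool.not_true, Bool.false_or] at c
  have e2 := legN_code h2
  rw [code_update] at e2
  unfold cp
  rw [code_update, code_rot]
  have e1 := dg_code h 0
  rw [hk] at e1
  rcases hab with ⟨ha, hb⟩ | ⟨ha, hb⟩
  · subst ha; subst hb
    have e1' : dg (code h) 0 = 1 := e1
    have e2' : legN (upd (code h) 0 3) = true := e2
    have := (Bool.and_eq_true _ _ ▸ c).1
    rw [e1', e2'] at this
    simpa using this
  · subst ha; subst hb
    have e1' : dg (code h) 0 = 3 := e1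
    have e2' : legN (upd (code h) 0 1) = true := e2
    have := (Bool.and_eq_true _ _ ▸ c).2
    rw [e1', e2'] at this
    simpa using this

/-- exactly one real end `1|3` and no real end `0|2` is impossible -/
theorem RawP.LQ (w : RawP X) {Q : ℝ} (hQ : QMark X Q) (nQ : N01 X Q)
    (hV : ∀ u, u ∈ X 0 → u ∈ X 2 → u ∉ X 1 → Pin X 2 u)
    (hQu : ∀ u, u ∈ X 1 → u ∈ X 3 → u ∉ X 0 → Pin X 3 u ∨ ∃ n : ℤ, u = Q + 6 * n) : False := by
  have hfree : ∀ (s : ℝ), 0 ≤ s → s < 1 → ∀ (j : Fin 6),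
      ¬ (s = 0 ∧ j = 0) → FreeN (pl X) Fr (Q + s + (j.val : ℝ)) := by
    intro s hs0 hs1 j n1
    refine w.freeN_pl (fun h0 h2 h1 => hV _ h0 h2 h1) ?_
    intro h1 h3 h0
    rcases hQu _ h1 h3 h0 with h | ⟨n, hn⟩
    · exact h
    have : s + (j.val : ℝ) = 0 + ((0 : Fin 6).val : ℝ) + 6 * (n : ℝ) := by
      have : (((0 : Fin 6).val : ℕ) : ℝ) = 0 := by simp
      rw [this]; linarith
    exact absurd (eq_of_mod hs0 hs1 le_rfl one_pos this) n1
  obtain ⟨a, b, hm, hab⟩ : ∃ a b : Fin 4, Mark X a b Q ∧ ((a = 1 ∧ b = 3) ∨ (a = 3 ∧ b = 1)) := by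
    rcases hQ with h | h
    exacts [⟨1, 3, h, Or.inl ⟨rfl, rfl⟩⟩, ⟨3, 1, h, Or.inr ⟨rfl, rfl⟩⟩]
  have e0 : Q + (((0 : Fin 6).val : ℕ) : ℝ) = Q := by simp
  obtain ⟨h, hleg, hins, hl, hr, hF⟩ := w.jump w.can2 (free := Fr) (cmp := cp) cp_step Fr.refl
    (u := Q) {0} (fun _ => a) (fun _ => b)
    (by intro k hk; rw [Finset.mem_singleton] at hk; subst hk; rw [e0]; exact hm)
    (fun k hk => Or.inr (Or.inr hab))
    (by
      intro k hk x hx
      rw [Finset.mem_singleton] at hk; subst hk; rw [e0]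
      rcases hab with ⟨e1, e2⟩ | ⟨e1, e2⟩
      · subst e1; subst e2
        exact w.adjQ hm.mem_a hm.mem_b nQ hx
      · subst e1; subst e2
        exact w.adjQ hm.mem_b hm.mem_a nQ hx.symm)
    (by
      intro k hk
      rw [Finset.mem_singleton] at hk
      have := hfree 0 le_rfl one_pos k (fun h => hk h.2)
      rw [add_zero] at this
      exact this)
  obtain ⟨e1, e2⟩ := hins ∅ 0 (Finset.mem_singleton_self _) (Finset.notMem_empty _)
  rw [insert_empty_eq] at e2
  have := w.seg w.can2 (free := Fr) (cmp := cp) cp_step Fr.refl (a := Q) (b := Q + 1) (by linarith)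
    (by
      intro u hu j
      have := hfree (u - Q) (by linarith [hu.1]) (by linarith [hu.2]) j
        (fun h => by linarith [h.1, hu.1])
      rw [show Q + (u - Q) = u by ring] at this
      exact this) hr hF
  have l2 := hleg {0}
  rw [e2] at this l2
  exact self_step (hleg ∅) l2 e1 hab this

/-- some real end `0|2` or `1|3` exists -/
theorem RawP.L0 (w : RawP X) (hV : ∀ u, u ∈ X 0 → u ∈ X 2 → u ∉ X 1 → Pin X 2 u)
    (hQ : ∀ u, u ∈ X 1 → u ∈ X 3 → u ∉ X 0 → Pin X 3 u) : False := by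
  have C := w.can2
  have key := w.const_Ioo C (free := Fr) (cmp := cp) cp_step Fr.refl isPreconnected_univ
    (fun u _ k => w.freeN_pl (hV _) (hQ _)) (mem_univ (0 : ℝ)) (mem_univ (0 + 1))
  rw [C.st_add_one] at key
  exact rot_of_chk chkRot2 (C.leg w 0) key.symm

end Vale.Agent.P032.H361
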