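import Vale.Agent.P032.H361.TriW

/-!
# P032: L1 and L2 for words with triple letters

`L1x_e`, `L1x_f`, `L2x` for `H350.Pre`, `L2xW` for `H350.PreW` (and `RawP`): special positions (`0`, `1` and a pair letter) are
not counted; they may be neighbours of real ends.  `RawP.shiftQ`: a real end `1|3` next to a special
position is moved a little.
-/

open Set Filter Topology

noncomputable section

namespace Vale.Agent.P032.H361

open Vale.Agent.P032.Words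

variable {X : Fin 4 → Set ℝ}

/-! ## Renaming -/

theorem RawP.anti' (R : RawP X) (u : ℝ) (h : u ∈ X 3) : u + 3 ∉ X 2 := fun h' =>
  R.anti _ h' (by
    have : u + 3 + 3 = u + 6 := by ring
    rw [this, R.per]; exact h)

/-- renaming of the letters by `σ` -/
theorem RawP.perm (R : RawP X) (σ : Equiv.Perm (Fin 4)) (hσ : ∀ l, l.val < 2 → (σ.symm l).val < 2)
    (h23 : (σ 2 = 2 ∧ σ 3 = 3) ∨ (σ 2 = 3 ∧ σ 3 = 2)) : RawP fun l => X (σ l) where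
  closed := fun l => R.closed _
  cover := fun u => by
    obtain ⟨l, hl⟩ := R.cover u
    exact ⟨σ.symm l, by rw [Equiv.apply_symm_apply]; exact hl⟩
  per := fun l u => R.per _ u
  anti := by
    rcases h23 with ⟨h2, h3⟩ | ⟨h2, h3⟩ <;> rw [h2, h3]
    · exact R.anti
    · exact R.anti'
  ac := by
    rcases h23 with ⟨h2, h3⟩ | ⟨h2, h3⟩ <;> rw [h2, h3]
    · exact R.ac
    · exact fun u h h' => R.ac u h' h
  own := fun u l h1 h2 => by
    obtain ⟨m, hm, h⟩ := R.own u _ h1 h2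
    refine ⟨σ.symm m, fun e => hm ?_, by rw [Equiv.apply_symm_apply]; exact h⟩
    rw [← e, Equiv.apply_symm_apply]
  own' := fun u l h1 h2 => by
    obtain ⟨m, hm, h⟩ := R.own' u _ h1 h2
    refine ⟨σ.symm m, fun e => hm ?_, by rw [Equiv.apply_symm_apply]; exact h⟩
    rw [← e, Equiv.apply_symm_apply]
  swap := fun u l m h1 h2 h3 h4 => σ.injective (R.swap u _ _ h1 h2 h3 h4)
  dbl := fun u l m hlm h1 h2 h3 h4 => by
    have := R.dbl u _ _ (fun h => hlm (σ.injective h)) h1 h2 h3 h4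
    have a := hσ _ this.1
    have b := hσ _ this.2
    rw [Equiv.symm_apply_apply] at a b
    exact ⟨a, b⟩

/-- exchange of `e` and `f` -/
theorem RawP.swapEF (R : RawP X) : RawP ![X 1, X 0, X 2, X 3] := by
  have h := R.perm (Equiv.swap 0 1) (by decide) (Or.inl ⟨by decide, by decide⟩)
  have e : (fun l => X (Equiv.swap 0 1 l)) = ![X 1, X 0, X 2, X 3] := by
    funext l; fin_cases l <;> rfl
  rw [e] at h
  exact h

/-- exchange of `A` and `C` -/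
theorem RawP.swapAC (R : RawP X) : RawP ![X 0, X 1, X 3, X 2] := by
  have h := R.perm (Equiv.swap 2 3) (by decide) (Or.inr ⟨by decide, by decide⟩)
  have e : (fun l => X (Equiv.swap 2 3 l)) = ![X 0, X 1, X 3, X 2] := by
    funext l; fin_cases l <;> rfl
  rw [e] at h
  exact h

/-- exchange of `e` and `f` and of `A` and `C` -/
def sB (X : Fin 4 → Set ℝ) : Fin 4 → Set ℝ := ![X 1, X 0, X 3, X 2]

theorem RawP.swapB (R : RawP X) : RawP (sB X) := R.swapEF.swapAC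

/-- **L1**: some position has the letter `1`, a pair letter and not the letter `0`. -/
theorem RawP.L1f (w : RawP X) : ∃ u, u ∈ X 1 ∧ (u ∈ X 2 ∨ u ∈ X 3) ∧ u ∉ X 0 := w.swapEF.L1e

theorem RawP.perZ (R : RawP X) (n : ℤ) (l : Fin 4) (u : ℝ) : u + 6 * (n : ℝ) ∈ X l ↔ u ∈ X l := by
  induction n with
  | zero => simp
  | succ i ih =>
    have : u + 6 * (((i : ℤ) + 1 : ℤ) : ℝ) = (u + 6 * ((i : ℤ) : ℝ)) + 6 := by push_cast; ring
    rw [this, R.per, ih]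
  | pred i ih =>
    have : u + 6 * ((-(i : ℤ) - 1 : ℤ) : ℝ) + 6 = u + 6 * ((-(i : ℤ) : ℤ) : ℝ) := by
      push_cast; ring
    rw [← R.per, this, ih]

theorem mark_sB {v : ℝ} {a b : Fin 4} (h : Mark X a b v) :
    Mark (sB X) (Equiv.swap 2 3 (Equiv.swap 0 1 a)) (Equiv.swap 2 3 (Equiv.swap 0 1 b)) v :=
  h.swapEF.swapAC

theorem sB_sB (X : Fin 4 → Set ℝ) : sB (sB X) = X := by
  funext l; fin_cases l <;> rfl

theorem vmark_sB {v : ℝ} (h : VMark X v) : QMark (sB X) v := by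
  rcases h with h | h
  · exact Or.inl (mark_sB h)
  · exact Or.inr (mark_sB h)

theorem qmark_sB {v : ℝ} (h : QMark X v) : VMark (sB X) v := by
  rcases h with h | h
  · exact Or.inl (mark_sB h)
  · exact Or.inr (mark_sB h)

theorem pin_sB2 {v : ℝ} (h : Pin X 2 v) : Pin (sB X) 3 v := by
  filter_upwards [h] with x hx l hl
  fin_cases l
  · exact absurd (hx 1 hl) (by decide)
  · exact absurd (hx 0 hl) (by decide)
  · exact absurd (hx 3 hl) (by decide)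
  · rfl

theorem pin_sB3 {v : ℝ} (h : Pin X 3 v) : Pin (sB X) 2 v := by
  filter_upwards [h] with x hx l hl
  fin_cases l
  · exact absurd (hx 1 hl) (by decide)
  · exact absurd (hx 0 hl) (by decide)
  · rfl
  · exact absurd (hx 2 hl) (by decide)

theorem n01_sB {v : ℝ} : N01 (sB X) v ↔ N01 X v := by
  unfold N01
  constructor
  · rintro ⟨h1, h2⟩; exact ⟨fun h => h1 h.symm, fun h => h2 h.symm⟩
  · rintro ⟨h1, h2⟩; exact ⟨fun h => h1 h.symm, fun h => h2 h.symm⟩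

/-! ## Sides of an isolated clean position -/

/-- on an interval covered by two disjoint closed sets one of them is everything -/
theorem pure_side {A B : Set ℝ} (hA : IsClosed A) (hB : IsClosed B) {a b : ℝ}
    (hc : ∀ u ∈ Ioo a b, u ∈ A ∨ u ∈ B) (hd : ∀ u ∈ Ioo a b, ¬ (u ∈ A ∧ u ∈ B)) :
    (∀ u ∈ Ioo a b, u ∉ B) ∨ (∀ u ∈ Ioo a b, u ∉ A) := by
  by_contra hcon
  push Not at hcon
  obtain ⟨⟨x, hx, hxB⟩, ⟨y, hy, hyA⟩⟩ := hcon
  obtain ⟨z, hz, hzA, hzB⟩ := isPreconnected_closed_iff.1 (isPreconnected_Ioo (a := a) (b := b)) A B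
    hA hB (fun u hu => hc u hu) ⟨y, hy, hyA⟩ ⟨x, hx, hxB⟩
  exact hd z hz ⟨hzA, hzB⟩

/-- an isolated clean position `0|2` is a mark or a pinch `2|2` -/
theorem RawP.classV (w : RawP X) (hi2 : ∀ u ∈ X 2, ∃ᶠ v in 𝓝[≠] u, v ∈ X 2) {v : ℝ}
    (h0 : v ∈ X 0) (h2 : v ∈ X 2) (h1 : v ∉ X 1)
    (hiso : ∀ᶠ u in 𝓝[≠] v, ¬ (u ∈ X 0 ∧ u ∈ X 2 ∧ u ∉ X 1)) : VMark X v ∨ Pin X 2 v := by
  have h3 : v ∉ X 3 := w.ac v h2
  have n1 := (w.closed 1).isOpen_compl.mem_nhds h1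
  have n3 := (w.closed 3).isOpen_compl.mem_nhds h3
  have hiso' := eventually_nhdsWithin_iff.1 hiso
  obtain ⟨ε, hε, hball⟩ := Metric.eventually_nhds_iff.1 ((hiso'.and n1).and n3)
  have key : ∀ u, u ≠ v → |u - v| < ε → (u ∉ X 1 ∧ u ∉ X 3 ∧ (u ∈ X 0 ∨ u ∈ X 2) ∧
      ¬ (u ∈ X 0 ∧ u ∈ X 2)) := by
    intro u hu hd
    obtain ⟨⟨k1, k2⟩, k3⟩ := hball (y := u) (by rw [Real.dist_eq]; exact hd)
    have k2' : u ∉ X 1 := k2
    have k3' : u ∉ X 3 := k3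
    refine ⟨k2', k3', ?_, fun h => k1 hu ⟨h.1, h.2, k2'⟩⟩
    obtain ⟨l, hl⟩ := w.cover u
    fin_cases l
    exacts [Or.inl hl, absurd hl k2', Or.inr hl, absurd hl k3']
  have side : ∀ a b : ℝ, (∀ u ∈ Ioo a b, u ≠ v ∧ |u - v| < ε) →
      (∀ u ∈ Ioo a b, u ∉ X 2) ∨ (∀ u ∈ Ioo a b, u ∉ X 0) := by
    intro a b hab
    exact pure_side (w.closed 0) (w.closed 2)
      (fun u hu => (key u (hab u hu).1 (hab u hu).2).2.2.1)
      (fun u hu => (key u (hab u hu).1 (hab u hu).2).2.2.2)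
  have hl : ∀ u ∈ Ioo (v - ε) v, u ≠ v ∧ |u - v| < ε := by
    intro u hu
    exact ⟨hu.2.ne, by rw [abs_lt]; constructor <;> linarith [hu.1, hu.2]⟩
  have hr : ∀ u ∈ Ioo v (v + ε), u ≠ v ∧ |u - v| < ε := by
    intro u hu
    exact ⟨hu.1.ne', by rw [abs_lt]; constructor <;> linarith [hu.1, hu.2]⟩
  have el : ∀ᶠ u in 𝓝[<] v, u ∈ Ioo (v - ε) v := Ioo_mem_nhdsLT (by linarith)
  have er : ∀ᶠ u in 𝓝[>] v, u ∈ Ioo v (v + ε) := Ioo_mem_nhdsGT (by linarith)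
  have only : ∀ l, v ∈ X l → l = 0 ∨ l = 2 := by
    intro l hl
    fin_cases l
    exacts [Or.inl rfl, absurd hl h1, Or.inr rfl, absurd hl h3]
  rcases side _ _ hl with a | a <;> rcases side _ _ hr with b | b
  · -- `0|0`
    exfalso
    have h4 : ∀ᶠ u in 𝓝[≠] v, u ∉ X 2 := by
      have h5 : ∀ᶠ u in 𝓝[≠] v, |u - v| < ε := by
        refine Filter.Eventually.filter_mono nhdsWithin_le_nhds ?_
        exact Metric.eventually_nhds_iff.2 ⟨ε, hε, fun y hy => by rwa [Real.dist_eq] at hy⟩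
      filter_upwards [h5, self_mem_nhdsWithin] with u hu hne
      rcases lt_or_gt_of_ne (show u ≠ v from hne) with h6 | h6
      · exact a u ⟨by linarith [(abs_lt.1 hu).1], h6⟩
      · exact b u ⟨h6, by linarith [(abs_lt.1 hu).2]⟩
    exact hi2 v h2 (by filter_upwards [h4] with u hu; exact hu)
  · exact Or.inl (Or.inl ⟨h0, h2, only, by filter_upwards [el] with u hu; exact a u hu,
      by filter_upwards [er] with u hu; exact b u hu⟩)
  · exact Or.inl (Or.inr ⟨h2, h0, fun l hl => (only l hl).symm,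
      by filter_upwards [el] with u hu; exact a u hu,
      by filter_upwards [er] with u hu; exact b u hu⟩)
  · right
    have h5 : ∀ᶠ u in 𝓝[≠] v, |u - v| < ε := by
      refine Filter.Eventually.filter_mono nhdsWithin_le_nhds ?_
      exact Metric.eventually_nhds_iff.2 ⟨ε, hε, fun y hy => by rwa [Real.dist_eq] at hy⟩
    filter_upwards [h5, self_mem_nhdsWithin] with u hu hne l hl
    have h6 := key u hne hu
    have h7 : u ∉ X 0 := by
      rcases lt_or_gt_of_ne (show u ≠ v from hne) with h8 | h8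
      · exact a u ⟨by linarith [(abs_lt.1 hu).1], h8⟩
      · exact b u ⟨h8, by linarith [(abs_lt.1 hu).2]⟩
    fin_cases l
    exacts [absurd hl h7, absurd hl h6.1, rfl, absurd hl h6.2.1]

/-- the clean positions are isolated if they are all `V` modulo 6 -/
theorem iso_of_mod {P : ℝ → Prop} {V : ℝ} (hP : ∀ u, P u → ∃ n : ℤ, u = V + 6 * n) {v : ℝ}
    (hv : P v) : ∀ᶠ u in 𝓝[≠] v, ¬ P u := by
  obtain ⟨n, hn⟩ := hP v hv
  have h5 : ∀ᶠ u in 𝓝[≠] v, |u - v| < 1 := by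
    refine Filter.Eventually.filter_mono nhdsWithin_le_nhds ?_
    exact Metric.eventually_nhds_iff.2 ⟨1, one_pos, fun y hy => by rwa [Real.dist_eq] at hy⟩
  filter_upwards [h5, self_mem_nhdsWithin] with u hu hne hPu
  obtain ⟨m, hm⟩ := hP u hPu
  rw [hn, hm] at hu
  have e : V + 6 * (m : ℝ) - (V + 6 * (n : ℝ)) = 6 * ((m - n : ℤ) : ℝ) := by push_cast; ring
  rw [e, abs_lt] at hu
  have a1 : ((m - n : ℤ) : ℝ) < 1 := by linarith [hu.2]
  have a2 : (-1 : ℝ) < ((m - n : ℤ) : ℝ) := by linarith [hu.1]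
  have b1 : m - n < 1 := by exact_mod_cast a1
  have b2 : -1 < m - n := by exact_mod_cast a2
  have : m = n := by omega
  exact hne (by rw [hm, hn, this]; rfl)

/-! ## Moving a real end -/

/-- the coordinate of `u` at the copy `n` of `Q` -/
def tq (τ Q : ℝ) (n : ℤ) (u : ℝ) : ℝ := τ * (u - Q - 6 * n)

/-- the points with a coordinate in `J` -/
def Cp (τ Q : ℝ) (J : Set ℝ) : Set ℝ := {u | ∃ n : ℤ, tq τ Q n u ∈ J}

theorem isOpen_cp (τ Q : ℝ) {J : Set ℝ} (hJ : IsOpen J) : IsOpen (Cp τ Q J) := by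
  have : Cp τ Q J = ⋃ n : ℤ, tq τ Q n ⁻¹' J := by
    ext u
    simp only [Cp, mem_ofPred_eq, mem_iUnion, mem_preimage]
  rw [this]
  exact isOpen_iUnion fun n => hJ.preimage (by unfold tq; fun_prop)

/-- two coordinates of one point differ by a multiple of 6 -/
theorem tq_uniq {τ Q : ℝ} (hτ : τ = 1 ∨ τ = -1) {n m : ℤ} {u c : ℝ} (hc : |c| < 5)
    (h : |tq τ Q n u - tq τ Q m (u + c)| < 1) : n = m ∨ 1 < |c| := by
  have e : tq τ Q n u - tq τ Q m (u + c) = τ * (6 * ((m - n : ℤ) : ℝ) - c) := by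
    unfold tq; push_cast; ring
  rw [e, abs_mul] at h
  have h1 : |τ| = 1 := by rcases hτ with rfl | rfl <;> simp
  rw [h1, one_mul] at h
  by_cases hnm : m - n = 0
  · left; omega
  right
  have h2 : (1 : ℝ) ≤ |((m - n : ℤ) : ℝ)| := by
    rw [← Int.cast_abs]
    exact_mod_cast Int.one_le_abs hnm
  have h3 : |6 * ((m - n : ℤ) : ℝ)| ≤ |6 * ((m - n : ℤ) : ℝ) - c| + |c| := by
    have := abs_add_le (6 * ((m - n : ℤ) : ℝ) - c) c
    rwa [sub_add_cancel] at this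
  rw [abs_mul, abs_of_pos (show (0 : ℝ) < 6 by norm_num)] at h3
  linarith

theorem isClosed_cp {τ Q : ℝ} (hτ : τ = 1 ∨ τ = -1) (δ : ℝ) :
    IsClosed (Cp τ Q (Icc 0 δ)) := by
  have e : Cp τ Q (Icc 0 δ) = (Cp τ Q (Ioo δ 6))ᶜ := by
    ext u
    simp only [Cp, mem_ofPred_eq, mem_compl_iff, not_exists]
    constructor
    · rintro ⟨n, h2, h3⟩ m ⟨h4, h5⟩
      have e1 : tq τ Q n u - tq τ Q m u = 6 * τ * ((m : ℝ) - n) := by unfold tq; ring
      rcases hτ with ho | ho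
      · rw [ho] at e1 h2 h3 h4 h5
        have a1 : ((m : ℝ) - n) < 0 := by linarith
        have a2 : -1 < ((m : ℝ) - n) := by linarith
        have b1 : ((m - n : ℤ) : ℝ) < 0 := by push_cast; exact a1
        have b2 : ((-1 : ℤ) : ℝ) < ((m - n : ℤ) : ℝ) := by push_cast; exact a2
        have c1 : m - n < 0 := by exact_mod_cast b1
        have c2 : -1 < m - n := by exact_mod_cast b2
        omega
      · rw [ho] at e1 h2 h3 h4 h5
        have a1 : 0 < ((m : ℝ) - n) := by linarith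
        have a2 : ((m : ℝ) - n) < 1 := by linarith
        have b1 : ((0 : ℤ) : ℝ) < ((m - n : ℤ) : ℝ) := by push_cast; exact a1
        have b2 : ((m - n : ℤ) : ℝ) < ((1 : ℤ) : ℝ) := by push_cast; exact a2
        have c1 : 0 < m - n := by exact_mod_cast b1
        have c2 : m - n < 1 := by exact_mod_cast b2
        omega
    · intro h
      obtain ⟨n, hn0, hn6⟩ : ∃ n : ℤ, 0 ≤ tq τ Q n u ∧ tq τ Q n u < 6 := by
        rcases hτ with ho | ho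
        · refine ⟨⌊(u - Q) / 6⌋, ?_, ?_⟩
          · have := Int.floor_le ((u - Q) / 6)
            unfold tq; rw [ho]; linarith
          · have := Int.lt_floor_add_one ((u - Q) / 6)
            unfold tq; rw [ho]; linarith
        · refine ⟨-⌊-(u - Q) / 6⌋, ?_, ?_⟩
          · have := Int.floor_le (-(u - Q) / 6)
            unfold tq; rw [ho]; push_cast; linarith
          · have := Int.lt_floor_add_one (-(u - Q) / 6)
            unfold tq; rw [ho]; push_cast; linarith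
      refine ⟨n, hn0, ?_⟩
      by_contra hc
      exact h n ⟨not_le.1 hc, hn6⟩
  rw [e]
  exact (isOpen_cp τ Q isOpen_Ioo).isClosed_compl

/-- the word with the end `1|3` at `Q` moved by `δ` into the letter `1` -/
def Sh (X : Fin 4 → Set ℝ) (τ Q ε δ : ℝ) : Fin 4 → Set ℝ :=
  ![X 0, X 1 \ Cp τ Q (Ioo (-ε) δ), X 2, X 3 ∪ Cp τ Q (Icc 0 δ)]

/-- the local facts for the move -/
structure Loc (X : Fin 4 → Set ℝ) (τ Q ε δ : ℝ) : Prop where
  hτ : τ = 1 ∨ τ = -1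
  e0 : 0 < ε
  e4 : ε ≤ 1 / 4
  d0 : 0 < δ
  de : δ < ε
  f0 : ∀ t, |t| < ε → Q + t ∉ X 0
  f2 : ∀ t, |t| < ε → Q + t ∉ X 2
  r3 : ∀ t, |t| < ε → Q + 1 + t ∉ X 3
  l3 : ∀ t, |t| < ε → Q - 1 + t ∉ X 3
  a2 : ∀ t, |t| < ε → Q + 3 + t ∉ X 2
  s1 : ∀ t ∈ Ioo 0 ε, Q + τ * t ∉ X 3
  s3 : ∀ t ∈ Ioo 0 ε, Q - τ * t ∉ X 1
  qm : QMark X Q

section shift
variable {τ Q ε δ : ℝ}

theorem Loc.eq (h : Loc X τ Q ε δ) (n : ℤ) (u : ℝ) : u = Q + τ * tq τ Q n u + 6 * n := by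
  unfold tq
  rcases h.hτ with h | h <;> rw [h] <;> ring

theorem Loc.abs (h : Loc X τ Q ε δ) {t : ℝ} (ht : |t| < ε) : |τ * t| < ε := by
  rw [abs_mul]
  rcases h.hτ with h | h <;> rw [h] <;> simpa using ht

theorem Loc.n0 (h : Loc X τ Q ε δ) (w : RawP X) {n : ℤ} {u : ℝ} (hu : |tq τ Q n u| < ε) :
    u ∉ X 0 := by
  rw [h.eq n u, w.perZ]; exact h.f0 _ (h.abs hu)

theorem Loc.n2 (h : Loc X τ Q ε δ) (w : RawP X) {n : ℤ} {u : ℝ} (hu : |tq τ Q n u| < ε) :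
    u ∉ X 2 := by
  rw [h.eq n u, w.perZ]; exact h.f2 _ (h.abs hu)

theorem Loc.nr (h : Loc X τ Q ε δ) (w : RawP X) {n : ℤ} {u : ℝ} (hu : |tq τ Q n u| < ε) :
    u + 1 ∉ X 3 := by
  have e : u + 1 = Q + 1 + τ * tq τ Q n u + 6 * n := by linear_combination h.eq n u
  rw [e, w.perZ]; exact h.r3 _ (h.abs hu)

theorem Loc.nlft (h : Loc X τ Q ε δ) (w : RawP X) {n : ℤ} {u : ℝ} (hu : |tq τ Q n u| < ε) :
    u - 1 ∉ X 3 := by
  have e : u - 1 = Q - 1 + τ * tq τ Q n u + 6 * n := by linear_combination h.eq n u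
  rw [e, w.perZ]; exact h.l3 _ (h.abs hu)

theorem Loc.na (h : Loc X τ Q ε δ) (w : RawP X) {n : ℤ} {u : ℝ} (hu : |tq τ Q n u| < ε) :
    u - 3 ∉ X 2 := by
  have e : u - 3 = Q + 3 + τ * tq τ Q n u + 6 * ((n - 1 : ℤ) : ℝ) := by
    push_cast; linear_combination h.eq n u
  rw [e, w.perZ]; exact h.a2 _ (h.abs hu)

theorem Loc.p1 (h : Loc X τ Q ε δ) (w : RawP X) {n : ℤ} {u : ℝ} (hu : tq τ Q n u ∈ Ioo 0 ε) :
    u ∉ X 3 := by
  have := h.s1 _ hu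
  rwa [← w.perZ n, ← h.eq n u] at this

theorem Loc.p3 (h : Loc X τ Q ε δ) (w : RawP X) {n : ℤ} {u : ℝ} (hu : tq τ Q n u ∈ Ioo (-ε) 0) :
    u ∉ X 1 := by
  have := h.s3 (-tq τ Q n u) ⟨by linarith [hu.2], by linarith [hu.1]⟩
  rw [mul_neg, sub_neg_eq_add, ← w.perZ n, ← h.eq n u] at this
  exact this

theorem Loc.of_icc (h : Loc X τ Q ε δ) {t : ℝ} (ht : t ∈ Icc 0 δ) : |t| < ε := by
  rw [abs_of_nonneg ht.1]; linarith [ht.2, h.de]

/-- on the side of the letter `1` there is only `1`, and the neighbours do not have it -/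
theorem Loc.one (h : Loc X τ Q ε δ) (w : RawP X) {n : ℤ} {u : ℝ} (hu : tq τ Q n u ∈ Ioo 0 ε) :
    u ∈ X 1 ∧ u + 1 ∉ X 1 ∧ u - 1 ∉ X 1 := by
  have ha : |tq τ Q n u| < ε := by rw [abs_of_pos hu.1]; exact hu.2
  have n0 := h.n0 w ha
  have n2 := h.n2 w ha
  have n3 := h.p1 w hu
  have only : ∀ l, u ∈ X l → l = 1 := by
    intro l hl
    fin_cases l
    exacts [absurd hl n0, rfl, absurd hl n2, absurd hl n3]
  have h1 : u ∈ X 1 := by
    obtain ⟨l, hl⟩ := w.cover u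
    exact (only l hl) ▸ hl
  refine ⟨h1, ?_, ?_⟩
  · intro hc
    obtain ⟨m, hm, hmu⟩ := w.own u 1 h1 hc
    exact hm (only m hmu)
  · intro hc
    have e : u - 1 + 1 = u := by ring
    obtain ⟨m, hm, hmu⟩ := w.own' (u - 1) 1 hc (by rw [e]; exact h1)
    rw [e] at hmu
    exact hm (only m hmu)

theorem Loc.uniq (h : Loc X τ Q ε δ) {n m : ℤ} {u : ℝ} (h1 : |tq τ Q n u| < ε)
    (h2 : |tq τ Q m u| < ε) : n = m := by
  have he := h.e4
  have h3 : |tq τ Q n u - tq τ Q m (u + 0)| < 1 := by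
    rw [add_zero]
    calc _ ≤ |tq τ Q n u| + |tq τ Q m u| := abs_sub _ _
      _ < 1 := by linarith
  rcases tq_uniq h.hτ (by simp) h3 with h4 | h4
  · exact h4
  · simp at h4
    linarith

/-- two copies of the run are not at distance one -/
theorem Loc.no_two (h : Loc X τ Q ε δ) {n m : ℤ} {u : ℝ} (h1 : |tq τ Q n u| < ε)
    (h2 : |tq τ Q m (u + 1)| < ε) : False := by
  have he := h.e4
  have e : tq τ Q m (u + 1) - tq τ Q n u = τ * (1 - 6 * ((m - n : ℤ) : ℝ)) := by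
    unfold tq; push_cast; ring
  have h3 : |τ * (1 - 6 * ((m - n : ℤ) : ℝ))| < 1 := by
    rw [← e]
    calc _ ≤ |tq τ Q m (u + 1)| + |tq τ Q n u| := abs_sub _ _
      _ < 1 := by linarith
  have h4 : |1 - 6 * ((m - n : ℤ) : ℝ)| < 1 := by
    rw [abs_mul] at h3
    rcases h.hτ with h | h <;> rw [h] at h3 <;> simpa using h3
  rw [abs_lt] at h4
  have a1 : 0 < ((m - n : ℤ) : ℝ) := by linarith [h4.2]
  have a2 : ((m - n : ℤ) : ℝ) < 1 := by linarith [h4.1]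
  have b1 : 0 < m - n := by exact_mod_cast a1
  have b2 : m - n < 1 := by exact_mod_cast a2
  omega

theorem sh0 (u : ℝ) : u ∈ Sh X τ Q ε δ 0 ↔ u ∈ X 0 := Iff.rfl
theorem sh2 (u : ℝ) : u ∈ Sh X τ Q ε δ 2 ↔ u ∈ X 2 := Iff.rfl
theorem sh1 (u : ℝ) : u ∈ Sh X τ Q ε δ 1 ↔ u ∈ X 1 ∧ u ∉ Cp τ Q (Ioo (-ε) δ) := Iff.rfl
theorem sh3 (u : ℝ) : u ∈ Sh X τ Q ε δ 3 ↔ u ∈ X 3 ∨ u ∈ Cp τ Q (Icc 0 δ) := Iff.rfl

/-- outside the run the letters are the old ones -/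
theorem Loc.out (h : Loc X τ Q ε δ) (w : RawP X) {u : ℝ} (hu : u ∉ Cp τ Q (Icc 0 δ)) (l : Fin 4) :
    u ∈ Sh X τ Q ε δ l ↔ u ∈ X l := by
  fin_cases l
  · exact Iff.rfl
  · show u ∈ Sh X τ Q ε δ 1 ↔ u ∈ X 1
    rw [sh1]
    refine ⟨fun h1 => h1.1, fun h1 => ⟨h1, ?_⟩⟩
    rintro ⟨n, h2⟩
    rcases lt_or_ge (tq τ Q n u) 0 with h3 | h3
    · exact h.p3 w ⟨h2.1, h3⟩ h1
    · exact hu ⟨n, h3, h2.2.le⟩
  · exact Iff.rfl
  · show u ∈ Sh X τ Q ε δ 3 ↔ u ∈ X 3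
    rw [sh3]
    exact ⟨fun h1 => h1.resolve_right hu, Or.inl⟩

/-- the letters in the run -/
theorem Loc.run (h : Loc X τ Q ε δ) (w : RawP X) {n : ℤ} {u : ℝ} (hu : tq τ Q n u ∈ Icc 0 δ)
    {l : Fin 4} (hl : u ∈ Sh X τ Q ε δ l) : l = 3 ∨ (l = 1 ∧ tq τ Q n u = δ) := by
  have ha := h.of_icc hu
  fin_cases l
  · exact absurd hl (h.n0 w ha)
  · right
    refine ⟨rfl, ?_⟩
    have h1 : u ∈ X 1 ∧ u ∉ Cp τ Q (Ioo (-ε) δ) := hl
    by_contra hne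
    exact h1.2 ⟨n, by linarith [hu.1, h.e0], lt_of_le_of_ne hu.2 hne⟩
  · exact absurd hl (h.n2 w ha)
  · exact Or.inl rfl

/-- a shared letter: both positions are off the run -/
theorem Loc.shared (h : Loc X τ Q ε δ) (w : RawP X) {u : ℝ} {l : Fin 4}
    (h1 : u ∈ Sh X τ Q ε δ l) (h2 : u + 1 ∈ Sh X τ Q ε δ l) :
    u ∉ Cp τ Q (Icc 0 δ) ∧ u + 1 ∉ Cp τ Q (Icc 0 δ) := by
  constructor
  · rintro ⟨n, hn⟩
    have ha := h.of_icc hn
    rcases h.run w hn h1 with rfl | ⟨rfl, ht⟩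
    · rcases h2 with h3 | ⟨m, hm⟩
      · exact h.nr w ha h3
      · exact h.no_two ha (h.of_icc hm)
    · exact (h.one w (n := n) (u := u) ⟨by rw [ht]; exact h.d0, by rw [ht]; exact h.de⟩).2.1 h2.1
  · rintro ⟨n, hn⟩
    have ha := h.of_icc hn
    have e : u + 1 - 1 = u := by ring
    rcases h.run w hn h2 with rfl | ⟨rfl, ht⟩
    · rcases h1 with h3 | ⟨m, hm⟩
      · have := h.nlft w ha
        rw [e] at this
        exact this h3
      · exact h.no_two (h.of_icc hm) ha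
    · have := (h.one w (n := n) (u := u + 1) ⟨by rw [ht]; exact h.d0, by rw [ht]; exact h.de⟩).2.2
      rw [e] at this
      exact this h1.1

theorem cp_per (J : Set ℝ) (u : ℝ) : u + 6 ∈ Cp τ Q J ↔ u ∈ Cp τ Q J := by
  constructor
  · rintro ⟨n, h⟩
    refine ⟨n - 1, ?_⟩
    have e : tq τ Q (n - 1) u = tq τ Q n (u + 6) := by unfold tq; push_cast; ring
    rw [e]; exact h
  · rintro ⟨n, h⟩
    refine ⟨n + 1, ?_⟩
    have e : tq τ Q (n + 1) (u + 6) = tq τ Q n u := by unfold tq; push_cast; ring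
    rw [e]; exact h

/-- **the moved word** -/
theorem Loc.rawP (h : Loc X τ Q ε δ) (w : RawP X) : RawP (Sh X τ Q ε δ) where
  closed := fun l => by
    fin_cases l
    · exact w.closed 0
    · exact IsClosed.sdiff (w.closed 1) (isOpen_cp τ Q isOpen_Ioo)
    · exact w.closed 2
    · exact (w.closed 3).union (isClosed_cp h.hτ δ)
  cover := fun u => by
    by_cases hu : u ∈ Cp τ Q (Icc 0 δ)
    · exact ⟨3, Or.inr hu⟩
    · obtain ⟨l, hl⟩ := w.cover u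
      exact ⟨l, (h.out w hu l).2 hl⟩
  per := fun l u => by
    fin_cases l
    · exact w.per 0 u
    · show u + 6 ∈ Sh X τ Q ε δ 1 ↔ u ∈ Sh X τ Q ε δ 1
      rw [sh1, sh1, w.per, cp_per]
    · exact w.per 2 u
    · show u + 6 ∈ Sh X τ Q ε δ 3 ↔ u ∈ Sh X τ Q ε δ 3
      rw [sh3, sh3, w.per, cp_per]
  anti := fun u h2 => by
    rintro (h3 | ⟨n, hn⟩)
    · exact w.anti u h2 h3
    · have := h.na w (h.of_icc hn)
      rw [show u + 3 - 3 = u by ring] at this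
      exact this h2
  ac := fun u h2 => by
    rintro (h3 | ⟨n, hn⟩)
    · exact w.ac u h2 h3
    · exact h.n2 w (h.of_icc hn) h2
  own := fun u l h1 h2 => by
    obtain ⟨o1, o2⟩ := h.shared w h1 h2
    obtain ⟨m, hm, hmu⟩ := w.own u l ((h.out w o1 l).1 h1) ((h.out w o2 l).1 h2)
    exact ⟨m, hm, (h.out w o1 m).2 hmu⟩
  own' := fun u l h1 h2 => by
    obtain ⟨o1, o2⟩ := h.shared w h1 h2
    obtain ⟨m, hm, hmu⟩ := w.own' u l ((h.out w o1 l).1 h1) ((h.out w o2 l).1 h2)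
    exact ⟨m, hm, (h.out w o2 m).2 hmu⟩
  swap := fun u l m h1 h2 h3 h4 => by
    obtain ⟨o1, o2⟩ := h.shared w h1 h2
    exact w.swap u l m ((h.out w o1 l).1 h1) ((h.out w o2 l).1 h2) ((h.out w o1 m).1 h3)
      ((h.out w o2 m).1 h4)
  dbl := fun u l m hlm h1 h2 h3 h4 => by
    obtain ⟨o1, o2⟩ := h.shared w h1 h2
    have e : u + 1 + 1 = u + 2 := by ring
    obtain ⟨-, o3⟩ := h.shared w h3 (by rw [e]; exact h4)
    rw [e] at o3
    exact w.dbl u l m hlm ((h.out w o1 l).1 h1) ((h.out w o2 l).1 h2) ((h.out w o2 m).1 h3)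
      ((h.out w o3 m).1 h4)

theorem Loc.tq0 (h : Loc X τ Q ε δ) : tq τ Q 0 (Q + τ * δ) = δ := by
  unfold tq
  rcases h.hτ with h | h <;> rw [h] <;> push_cast <;> ring

theorem Loc.memIoo (h : Loc X τ Q ε δ) : tq τ Q 0 (Q + τ * δ) ∈ Ioo 0 ε := by
  rw [h.tq0]; exact ⟨h.d0, h.de⟩

/-- the new end -/
theorem Loc.q1 (h : Loc X τ Q ε δ) (w : RawP X) : Q + τ * δ ∈ Sh X τ Q ε δ 1 := by
  refine ⟨(h.one w h.memIoo).1, ?_⟩
  rintro ⟨n, hn⟩
  have h1 : |tq τ Q n (Q + τ * δ)| < ε := by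
    rw [abs_lt]; exact ⟨hn.1, by linarith [hn.2, h.de]⟩
  have h2 : |tq τ Q 0 (Q + τ * δ)| < ε := by rw [h.tq0, abs_of_pos h.d0]; exact h.de
  have := h.uniq h1 h2
  subst this
  rw [h.tq0] at hn
  exact lt_irrefl _ hn.2

theorem Loc.q3 (h : Loc X τ Q ε δ) : Q + τ * δ ∈ Sh X τ Q ε δ 3 :=
  Or.inr ⟨0, by rw [h.tq0]; exact ⟨h.d0.le, le_rfl⟩⟩

theorem Loc.qonly (h : Loc X τ Q ε δ) (w : RawP X) {l : Fin 4}
    (hl : Q + τ * δ ∈ Sh X τ Q ε δ l) : l = 1 ∨ l = 3 := by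
  rcases h.run w (n := 0) (u := Q + τ * δ) (by rw [h.tq0]; exact ⟨h.d0.le, le_rfl⟩) hl with
    h1 | ⟨h1, -⟩
  exacts [Or.inr h1, Or.inl h1]

theorem Loc.sd1 (h : Loc X τ Q ε δ) (w : RawP X) {u : ℝ} (hu : tq τ Q 0 u ∈ Ioo δ ε) :
    u ∉ Sh X τ Q ε δ 3 := by
  have h0 := h.d0
  rintro (h1 | ⟨n, hn⟩)
  · exact h.p1 w (n := 0) ⟨by linarith [hu.1], hu.2⟩ h1
  · have h2 : |tq τ Q 0 u| < ε := by rw [abs_of_pos (by linarith [hu.1])]; exact hu.2
    have := h.uniq (h.of_icc hn) h2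
    subst this
    linarith [hn.2, hu.1]

theorem Loc.sd3 {u : ℝ} (hu : tq τ Q 0 u ∈ Ioo (-ε) δ) : u ∉ Sh X τ Q ε δ 1 := fun h1 =>
  h1.2 ⟨0, hu⟩

theorem Loc.qmark (h : Loc X τ Q ε δ) (w : RawP X) : QMark (Sh X τ Q ε δ) (Q + τ * δ) := by
  have hd0 := h.d0
  have hde := h.de
  rcases h.hτ with ht | ht
  · right
    refine ⟨h.q3, h.q1 w, fun l hl => (h.qonly w hl).symm, ?_, ?_⟩
    · have : ∀ᶠ u in 𝓝[<] (Q + τ * δ), u ∈ Ioo Q (Q + τ * δ) :=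
        Ioo_mem_nhdsLT (by rw [ht]; linarith)
      filter_upwards [this] with u hu
      refine Loc.sd3 ?_
      unfold tq
      rw [ht] at hu ⊢
      push_cast
      constructor <;> linarith [hu.1, hu.2]
    · have : ∀ᶠ u in 𝓝[>] (Q + τ * δ), u ∈ Ioo (Q + τ * δ) (Q + ε) :=
        Ioo_mem_nhdsGT (by rw [ht]; linarith)
      filter_upwards [this] with u hu
      refine h.sd1 w ?_
      unfold tq
      rw [ht] at hu ⊢
      push_cast
      constructor <;> linarith [hu.1, hu.2]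
  · left
    refine ⟨h.q1 w, h.q3, fun l hl => h.qonly w hl, ?_, ?_⟩
    · have : ∀ᶠ u in 𝓝[<] (Q + τ * δ), u ∈ Ioo (Q - ε) (Q + τ * δ) :=
        Ioo_mem_nhdsLT (by rw [ht]; linarith)
      filter_upwards [this] with u hu
      refine h.sd1 w ?_
      unfold tq
      rw [ht] at hu ⊢
      push_cast
      constructor <;> linarith [hu.1, hu.2]
    · have : ∀ᶠ u in 𝓝[>] (Q + τ * δ), u ∈ Ioo (Q + τ * δ) Q :=
        Ioo_mem_nhdsGT (by rw [ht]; linarith)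
      filter_upwards [this] with u hu
      refine Loc.sd3 ?_
      unfold tq
      rw [ht] at hu ⊢
      push_cast
      constructor <;> linarith [hu.1, hu.2]

theorem Loc.nq (h : Loc X τ Q ε δ) (w : RawP X) : N01 (Sh X τ Q ε δ) (Q + τ * δ) := by
  obtain ⟨-, h2, h3⟩ := h.one w h.memIoo
  exact ⟨fun ht => h2 ht.2.1, fun ht => h3 ht.2.1⟩

theorem Loc.off0 (h : Loc X τ Q ε δ) (w : RawP X) {u : ℝ} (hu : u ∈ X 0) :
    u ∉ Cp τ Q (Icc 0 δ) := by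
  rintro ⟨n, hn⟩
  exact h.n0 w (h.of_icc hn) hu

theorem Loc.pin (h : Loc X τ Q ε δ) (w : RawP X) {u : ℝ} {j : Fin 4}
    (hu : u ∉ Cp τ Q (Icc 0 δ)) (hp : Pin X j u) : Pin (Sh X τ Q ε δ) j u := by
  have h1 := ((isClosed_cp (Q := Q) h.hτ δ).isOpen_compl.mem_nhds hu)
  filter_upwards [hp, mem_nhdsWithin_of_mem_nhds h1] with x hx hx2 l hl
  exact hx l ((h.out w hx2 l).1 hl)

theorem Loc.vmark (h : Loc X τ Q ε δ) (w : RawP X) {u : ℝ} (hm : VMark X u) :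
    VMark (Sh X τ Q ε δ) u := by
  have h0 : u ∈ X 0 := by rcases hm with h | h; exacts [h.mem_a, h.mem_b]
  have ho := h.off0 w h0
  rcases hm with hm | hm
  · exact Or.inl ⟨hm.mem_a, hm.mem_b, fun l hl => hm.only l ((h.out w ho l).1 hl), hm.left,
      hm.right⟩
  · exact Or.inr ⟨hm.mem_a, hm.mem_b, fun l hl => hm.only l ((h.out w ho l).1 hl), hm.left,
      hm.right⟩

theorem Loc.n01 (h : Loc X τ Q ε δ) (w : RawP X) {u : ℝ} (hn : N01 X u) :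
    N01 (Sh X τ Q ε δ) u := by
  have key : ∀ x : ℝ, x ∈ Sh X τ Q ε δ 0 ∧ x ∈ Sh X τ Q ε δ 1 → x ∈ X 0 ∧ x ∈ X 1 := by
    intro x hx
    exact ⟨hx.1, (h.out w (h.off0 w hx.1) 1).1 hx.2⟩
  exact ⟨fun ht => hn.1 (key _ ht), fun ht => hn.2 (key _ ht)⟩

end shift

theorem off_nhds (w : RawP X) {p : ℝ} {l : Fin 4} (hp : p ∉ X l) : ∀ᶠ t in 𝓝 (0 : ℝ),
    p + t ∉ X l := by
  have h1 := (w.closed l).isOpen_compl.mem_nhds hp
  have h2 : Tendsto (fun t : ℝ => p + t) (𝓝 0) (𝓝 (p + 0)) := by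
    have : Continuous fun t : ℝ => p + t := by fun_prop
    exact this.tendsto 0
  rw [add_zero] at h2
  exact h2.eventually h1

/-- the local facts at a real end next to a special position -/
theorem RawP.exists_loc (w : RawP X) {Q : ℝ} (hQ : QMark X Q) (hb : ¬ N01 X Q) :
    ∃ τ ε δ, Loc X τ Q ε δ := by
  have h13 : Q ∈ X 1 ∧ Q ∈ X 3 := by
    rcases hQ with h | h
    exacts [⟨h.mem_a, h.mem_b⟩, ⟨h.mem_b, h.mem_a⟩]
  have hon : ∀ l, Q ∈ X l → l = 1 ∨ l = 3 := by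
    rcases hQ with h | h
    exacts [h.only, fun l hl => (h.only l hl).symm]
  have n0 : Q ∉ X 0 := fun h => by rcases hon 0 h with h | h <;> exact absurd h (by decide)
  have n2 : Q ∉ X 2 := fun h => by rcases hon 2 h with h | h <;> exact absurd h (by decide)
  have e1 : Q - 1 + 1 = Q := by ring
  have e2 : Q - 1 + 2 = Q + 1 := by ring
  have hr : Q + 1 ∉ X 3 ∧ Q - 1 ∉ X 3 := by
    have hb' : (Q + 1 ∈ X 0 ∧ Q + 1 ∈ X 1) ∨ (Q - 1 ∈ X 0 ∧ Q - 1 ∈ X 1) := by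
      by_contra hc
      rw [not_or] at hc
      exact hb hc
    rcases hb' with ht | ht
    · refine ⟨fun h3 => ?_, fun h3 => ?_⟩
      · exact absurd (w.swap Q 1 3 h13.1 ht.2 h13.2 h3) (by decide)
      have := w.dbl (Q - 1) 3 1 (by decide) h3 (by rw [e1]; exact h13.2) (by rw [e1]; exact h13.1)
        (by rw [e2]; exact ht.2)
      exact absurd this.1 (by decide)
    · refine ⟨fun h3 => ?_, fun h3 => ?_⟩
      · have := w.dbl (Q - 1) 1 3 (by decide) ht.2 (by rw [e1]; exact h13.1)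
          (by rw [e1]; exact h13.2) (by rw [e2]; exact h3)
        exact absurd this.2 (by decide)
      · exact absurd (w.swap (Q - 1) 1 3 ht.2 (by rw [e1]; exact h13.1) h3
          (by rw [e1]; exact h13.2)) (by decide)
  have ha : Q + 3 ∉ X 2 := w.anti' Q h13.2
  have hall := ((((off_nhds w n0).and (off_nhds w n2)).and (off_nhds w hr.1)).and
    (off_nhds w hr.2)).and (off_nhds w ha)
  obtain ⟨ε1, hε1, hball⟩ := Metric.eventually_nhds_iff.1 hall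
  obtain ⟨τ, hτ, ε2, hε2, hs1, hs3⟩ : ∃ τ : ℝ, (τ = 1 ∨ τ = -1) ∧ ∃ ε2 > 0,
      (∀ t ∈ Ioo 0 ε2, Q + τ * t ∉ X 3) ∧ (∀ t ∈ Ioo 0 ε2, Q - τ * t ∉ X 1) := by
    have side : ∀ {a b : Fin 4}, Mark X a b Q → ∃ ε2 > 0,
        (∀ t ∈ Ioo 0 ε2, Q - t ∉ X b) ∧ (∀ t ∈ Ioo 0 ε2, Q + t ∉ X a) := by
      intro a b hm
      obtain ⟨x, hx, hxs⟩ := mem_nhdsLT_iff_exists_Ioo_subset.1 hm.left
      obtain ⟨y, hy, hys⟩ := mem_nhdsGT_iff_exists_Ioo_subset.1 hm.right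
      have hx' : x < Q := hx
      have hy' : Q < y := hy
      refine ⟨min (Q - x) (y - Q), lt_min (by linarith) (by linarith), ?_, ?_⟩
      · intro t ht
        have := ht.2.trans_le (min_le_left _ _)
        exact hxs ⟨by linarith, by linarith [ht.1]⟩
      · intro t ht
        have := ht.2.trans_le (min_le_right _ _)
        exact hys ⟨by linarith [ht.1], by linarith⟩
    rcases hQ with hm | hm
    · obtain ⟨ε2, h1, h2, h3⟩ := side hm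
      refine ⟨-1, Or.inr rfl, ε2, h1, fun t ht => ?_, fun t ht => ?_⟩
      · have := h2 t ht
        rwa [show Q + -1 * t = Q - t by ring]
      · have := h3 t ht
        rwa [show Q - -1 * t = Q + t by ring]
    · obtain ⟨ε2, h1, h2, h3⟩ := side hm
      refine ⟨1, Or.inl rfl, ε2, h1, fun t ht => ?_, fun t ht => ?_⟩
      · have := h3 t ht
        rwa [one_mul]
      · have := h2 t ht
        rwa [one_mul]
  set ε := min (min ε1 ε2) (1 / 4) with hεd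
  have hε0 : 0 < ε := lt_min (lt_min hε1 hε2) (by norm_num)
  have l1 : ε ≤ ε1 := (min_le_left _ _).trans (min_le_left _ _)
  have l2 : ε ≤ ε2 := (min_le_left _ _).trans (min_le_right _ _)
  have key : ∀ t, |t| < ε → _ := fun t ht => hball (y := t) (by
    rw [Real.dist_eq, sub_zero]; exact ht.trans_le l1)
  exact ⟨τ, ε, ε / 2, hτ, hε0, min_le_right _ _, by linarith, by linarith,
    fun t ht => (key t ht).1.1.1.1, fun t ht => (key t ht).1.1.1.2, fun t ht => (key t ht).1.1.2,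
    fun t ht => (key t ht).1.2, fun t ht => (key t ht).2,
    fun t ht => hs1 t ⟨ht.1, ht.2.trans_le l2⟩, fun t ht => hs3 t ⟨ht.1, ht.2.trans_le l2⟩, hQ⟩

/-- **a real end `1|3` may be assumed to have no special neighbours `2`** -/
theorem RawP.getQ (w : RawP X) {Q : ℝ} (hQ : QMark X Q)
    (hQu : ∀ u, u ∈ X 1 → u ∈ X 3 → u ∉ X 0 → Pin X 3 u ∨ ∃ n : ℤ, u = Q + 6 * n) :
    ∃ (X' : Fin 4 → Set ℝ) (Q' : ℝ), RawP X' ∧ QMark X' Q' ∧ N01 X' Q' ∧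
      (∀ u, u ∈ X' 1 → u ∈ X' 3 → u ∉ X' 0 → Pin X' 3 u ∨ ∃ n : ℤ, u = Q' + 6 * n) ∧
      (∀ u, u ∈ X' 0 → u ∈ X' 2 → u ∉ X' 1 → u ∈ X 0 ∧ u ∈ X 2 ∧ u ∉ X 1 ∧
        (Pin X 2 u → Pin X' 2 u)) ∧
      (∀ u, VMark X u → VMark X' u) ∧ (∀ u, N01 X u → N01 X' u) := by
  by_cases hb : N01 X Q
  · exact ⟨X, Q, w, hQ, hb, hQu, fun u h0 h2 h1 => ⟨h0, h2, h1, id⟩, fun u h => h, fun u h => h⟩
  obtain ⟨τ, ε, δ, h⟩ := w.exists_loc hQ hb
  refine ⟨Sh X τ Q ε δ, Q + τ * δ, h.rawP w, h.qmark w, h.nq w, ?_, ?_, fun u hu => h.vmark w hu,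
    fun u hu => h.n01 w hu⟩
  · intro u h1 h3 h0
    by_cases hu : u ∈ Cp τ Q (Icc 0 δ)
    · right
      obtain ⟨n, hn⟩ := hu
      rcases h.run w hn h1 with h4 | ⟨-, h4⟩
      · exact absurd h4 (by decide)
      · exact ⟨n, by rw [← h4]; exact h.eq n u⟩
    · have h1' := (h.out w hu 1).1 h1
      have h3' := (h.out w hu 3).1 h3
      rcases hQu u h1' h3' h0 with h4 | ⟨n, hn⟩
      · exact Or.inl (h.pin w hu h4)
      · exfalso
        refine hu ⟨n, ?_⟩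
        have : tq τ Q n u = 0 := by unfold tq; rw [hn]; ring
        rw [this]
        exact ⟨le_rfl, h.d0.le⟩
  · intro u h0 h2 h1
    have ho := h.off0 w h0
    exact ⟨h0, h2, fun h4 => h1 ((h.out w ho 1).2 h4), fun h4 => h.pin w ho h4⟩

/-! ## The final forms -/

/-- L2 with both ends anywhere -/
theorem RawP.L2w (R : RawP X) {V Q : ℝ} (hV : VMark X V) (nV : N01 X V) (hQ : QMark X Q)
    (nQ : N01 X Q)
    (hVu : ∀ u, u ∈ X 0 → u ∈ X 2 → u ∉ X 1 → Pin X 2 u ∨ ∃ n : ℤ, u = V + 6 * n)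
    (hQu : ∀ u, u ∈ X 1 → u ∈ X 3 → u ∉ X 0 → Pin X 3 u ∨ ∃ n : ℤ, u = Q + 6 * n) : False := by
  obtain ⟨m, hm⟩ : ∃ m : ℤ, V ≤ Q + 6 * m ∧ Q + 6 * m < V + 6 := by
    refine ⟨-⌊(Q - V) / 6⌋, ?_, ?_⟩
    · have := Int.floor_le ((Q - V) / 6)
      push_cast; linarith
    · have := Int.lt_floor_add_one ((Q - V) / 6)
      push_cast; linarith
  obtain ⟨hm1, hm2⟩ := hm
  have hmark : ∀ {x y : Fin 4}, Mark X x y Q → Mark X x y (Q + 6 * (m : ℝ)) := by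
    intro x y hh
    refine ⟨(R.perZ m _ _).mpr hh.mem_a, (R.perZ m _ _).mpr hh.mem_b,
      fun l hl => hh.only l ((R.perZ m _ _).mp hl), ?_, ?_⟩
    · have h1 := tendsto_add_left (Q + 6 * (m : ℝ)) (-(6 * (m : ℝ)))
      have e : Q + 6 * (m : ℝ) + -(6 * (m : ℝ)) = Q := by ring
      rw [e] at h1
      filter_upwards [h1.eventually hh.left] with v hv hv'
      refine hv ((R.perZ m _ _).mp ?_)
      have e2 : v + -(6 * (m : ℝ)) + 6 * (m : ℝ) = v := by ring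
      rw [e2]; exact hv'
    · have h1 := tendsto_add_right (Q + 6 * (m : ℝ)) (-(6 * (m : ℝ)))
      have e : Q + 6 * (m : ℝ) + -(6 * (m : ℝ)) = Q := by ring
      rw [e] at h1
      filter_upwards [h1.eventually hh.right] with v hv hv'
      refine hv ((R.perZ m _ _).mp ?_)
      have e2 : v + -(6 * (m : ℝ)) + 6 * (m : ℝ) = v := by ring
      rw [e2]; exact hv'
  have hQ2 : QMark X (Q + 6 * (m : ℝ)) := hQ.imp hmark hmark
  have nQ2 : N01 X (Q + 6 * (m : ℝ)) := by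
    have ht : ∀ c : ℝ, Q + 6 * (m : ℝ) + c ∈ X 0 ∧ Q + 6 * (m : ℝ) + c ∈ X 1 →
        Q + c ∈ X 0 ∧ Q + c ∈ X 1 := by
      intro c hc
      have e : Q + 6 * (m : ℝ) + c = Q + c + 6 * (m : ℝ) := by ring
      rw [e] at hc
      exact ⟨(R.perZ m _ _).1 hc.1, (R.perZ m _ _).1 hc.2⟩
    exact ⟨fun h => nQ.1 (ht 1 h), fun h => nQ.2 (by
      have := ht (-1) (by rw [← sub_eq_add_neg]; exact h)
      rwa [← sub_eq_add_neg] at this)⟩
  set T := Q + 6 * (m : ℝ) with hT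
  have hf0 : 0 ≤ ⌊T - V⌋ := Int.floor_nonneg.mpr (by linarith)
  have hf6 : ⌊T - V⌋ < 6 := by
    rw [Int.floor_lt]; push_cast; linarith
  have e : ((⌊T - V⌋.toNat : ℕ) : ℝ) = (⌊T - V⌋ : ℝ) := by
    have : ((⌊T - V⌋.toNat : ℤ)) = ⌊T - V⌋ := Int.toNat_of_nonneg hf0
    exact_mod_cast congrArg (Int.cast : ℤ → ℝ) this
  have hTe : V + Int.fract (T - V) + (((⟨⌊T - V⌋.toNat, by omega⟩ : Fin 6).val : ℕ) : ℝ) = T := by
    show V + Int.fract (T - V) + ((⌊T - V⌋.toNat : ℕ) : ℝ) = T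
    rw [e]
    have := Int.floor_add_fract (T - V)
    linarith
  refine R.L2aux hV nV hVu (k := ⟨⌊T - V⌋.toNat, by omega⟩)
    (Int.fract_nonneg (T - V)) (Int.fract_lt_one (T - V)) ?_ ?_ ?_
  · rw [hTe]; exact hQ2
  · rw [hTe]; exact nQ2
  · intro u a b c
    rcases hQu u a b c with h | ⟨n, hn⟩
    · exact Or.inl h
    refine Or.inr ⟨n - m, ?_⟩
    rw [hTe, hT, hn]
    push_cast; ring

/-- one real end `1|3`, no real end `0|2` -/
theorem RawP.caseQ (w : RawP X) {Q : ℝ} (hQ : QMark X Q)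
    (hV : ∀ u, u ∈ X 0 → u ∈ X 2 → u ∉ X 1 → Pin X 2 u)
    (hQu : ∀ u, u ∈ X 1 → u ∈ X 3 → u ∉ X 0 → Pin X 3 u ∨ ∃ n : ℤ, u = Q + 6 * n) : False := by
  obtain ⟨X', Q', w', hQ', nQ', hQu', hV', -, -⟩ := w.getQ hQ hQu
  refine w'.LQ hQ' nQ' ?_ hQu'
  intro u h0 h2 h1
  obtain ⟨a, b, c, d⟩ := hV' u h0 h2 h1
  exact d (hV u a b c)

/-- one real end `0|2`, one real end `1|3` -/
theorem RawP.caseVQ (w : RawP X) {V Q : ℝ} (hV : VMark X V) (hQ : QMark X Q)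
    (hVu : ∀ u, u ∈ X 0 → u ∈ X 2 → u ∉ X 1 → Pin X 2 u ∨ ∃ n : ℤ, u = V + 6 * n)
    (hQu : ∀ u, u ∈ X 1 → u ∈ X 3 → u ∉ X 0 → Pin X 3 u ∨ ∃ n : ℤ, u = Q + 6 * n) : False := by
  obtain ⟨X1, Q1, w1, hQ1, nQ1, hQu1, hV1, hm1, -⟩ := w.getQ hQ hQu
  have hVu1 : ∀ u, u ∈ X1 0 → u ∈ X1 2 → u ∉ X1 1 → Pin X1 2 u ∨ ∃ n : ℤ, u = V + 6 * n := by
    intro u h0 h2 h1
    obtain ⟨a, b, c, d⟩ := hV1 u h0 h2 h1
    exact (hVu u a b c).imp d id
  -- the same for the other end, in the renamed word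
  obtain ⟨X2, V2, w2, hV2, nV2, hVu2, hQ2, hm2, hn2⟩ := w1.swapB.getQ (vmark_sB (hm1 V hV))
    (fun u h1 h3 h0 => (hVu1 u h1 h3 h0).imp pin_sB2 id)
  refine w2.L2w (hm2 Q1 (qmark_sB hQ1)) (hn2 Q1 (n01_sB.2 nQ1)) hV2 nV2 ?_ hVu2
  intro u h0 h2 h1
  obtain ⟨a, b, c, d⟩ := hQ2 u h0 h2 h1
  exact (hQu1 u a b c).imp (fun h => d (pin_sB3 h)) id

/-- **L2**: at most one clean position `0|2` and at most one clean position `1|3` (modulo 6) is
impossible; special positions are not counted. -/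
theorem RawP.L2x (w : RawP X) (hi2 : ∀ u ∈ X 2, ∃ᶠ v in 𝓝[≠] u, v ∈ X 2)
    (hi3 : ∀ u ∈ X 3, ∃ᶠ v in 𝓝[≠] u, v ∈ X 3) (V Q : ℝ)
    (hVu : ∀ u, u ∈ X 0 → u ∈ X 2 → u ∉ X 1 → ∃ n : ℤ, u = V + 6 * n)
    (hQu : ∀ u, u ∈ X 1 → u ∈ X 3 → u ∉ X 0 → ∃ n : ℤ, u = Q + 6 * n) : False := by
  have cV : ∀ u, u ∈ X 0 → u ∈ X 2 → u ∉ X 1 → VMark X u ∨ Pin X 2 u := by
    intro u h0 h2 h1
    exact w.classV hi2 h0 h2 h1 (iso_of_mod (P := fun u => u ∈ X 0 ∧ u ∈ X 2 ∧ u ∉ X 1)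
      (fun u h => hVu u h.1 h.2.1 h.2.2) ⟨h0, h2, h1⟩)
  have cQ : ∀ u, u ∈ X 1 → u ∈ X 3 → u ∉ X 0 → QMark X u ∨ Pin X 3 u := by
    intro u h1 h3 h0
    have := w.swapB.classV (X := sB X) hi3 (v := u) h1 h3 h0 (iso_of_mod
      (P := fun u => u ∈ X 1 ∧ u ∈ X 3 ∧ u ∉ X 0) (fun u h => hQu u h.1 h.2.1 h.2.2)
      ⟨h1, h3, h0⟩)
    rcases this with h | h
    · left
      have := vmark_sB h
      rwa [sB_sB] at this
    · right
      have := pin_sB2 h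
      rwa [sB_sB] at this
  have dV : ∀ v, v ∈ X 0 → v ∈ X 2 → v ∉ X 1 → ∀ u, u ∈ X 0 → u ∈ X 2 → u ∉ X 1 →
      ∃ n : ℤ, u = v + 6 * n := by
    intro v a b c u h0 h2 h1
    obtain ⟨n, hn⟩ := hVu v a b c
    obtain ⟨m, hm⟩ := hVu u h0 h2 h1
    exact ⟨m - n, by rw [hn, hm]; push_cast; ring⟩
  have dQ : ∀ v, v ∈ X 1 → v ∈ X 3 → v ∉ X 0 → ∀ u, u ∈ X 1 → u ∈ X 3 → u ∉ X 0 →
      ∃ n : ℤ, u = v + 6 * n := by
    intro v a b c u h0 h2 h1
    obtain ⟨n, hn⟩ := hQu v a b c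
    obtain ⟨m, hm⟩ := hQu u h0 h2 h1
    exact ⟨m - n, by rw [hn, hm]; push_cast; ring⟩
  by_cases A : ∃ v, v ∈ X 0 ∧ v ∈ X 2 ∧ v ∉ X 1 ∧ VMark X v
  · obtain ⟨v, v0, v2, v1, hv⟩ := A
    by_cases B : ∃ q, q ∈ X 1 ∧ q ∈ X 3 ∧ q ∉ X 0 ∧ QMark X q
    · obtain ⟨q, q1, q3, q0, hq⟩ := B
      exact w.caseVQ hv hq (fun u a b c => Or.inr (dV v v0 v2 v1 u a b c))
        (fun u a b c => Or.inr (dQ q q1 q3 q0 u a b c))
    · push Not at B
      refine w.swapB.caseQ (vmark_sB hv) ?_ (fun u a b c => Or.inr (dV v v0 v2 v1 u a b c))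
      intro u h1 h3 h0
      rcases cQ u h1 h3 h0 with h | h
      · exact absurd h (B u h1 h3 h0)
      · exact pin_sB3 h
  · push Not at A
    have hP : ∀ u, u ∈ X 0 → u ∈ X 2 → u ∉ X 1 → Pin X 2 u := by
      intro u h0 h2 h1
      rcases cV u h0 h2 h1 with h | h
      · exact absurd h (A u h0 h2 h1)
      · exact h
    by_cases B : ∃ q, q ∈ X 1 ∧ q ∈ X 3 ∧ q ∉ X 0 ∧ QMark X q
    · obtain ⟨q, q1, q3, q0, hq⟩ := B
      exact w.caseQ hq hP (fun u a b c => Or.inr (dQ q q1 q3 q0 u a b c))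
    · push Not at B
      refine w.L0 hP ?_
      intro u h1 h3 h0
      rcases cQ u h1 h3 h0 with h | h
      · exact absurd h (B u h1 h3 h0)
      · exact h

/-! ## The forms for `H350.Pre` -/

/-- **L1** for `e`: a position with `e`, a pair letter, and not `f` -/
theorem L1x_e (R : H350.Pre X) : ∃ u, u ∈ X 0 ∧ (u ∈ X 2 ∨ u ∈ X 3) ∧ u ∉ X 1 :=
  (rawP_of_pre R).L1e

/-- **L1** for `f` -/
theorem L1x_f (R : H350.Pre X) : ∃ u, u ∈ X 1 ∧ (u ∈ X 2 ∨ u ∈ X 3) ∧ u ∉ X 0 :=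
  (rawP_of_pre R).L1f

/-- **L2** for `H350.PreW`, special positions not counted -/
theorem L2xW (R : H350.PreW X) (hi2 : ∀ u ∈ X 2, ∃ᶠ v in 𝓝[≠] u, v ∈ X 2)
    (hi3 : ∀ u ∈ X 3, ∃ᶠ v in 𝓝[≠] u, v ∈ X 3) (V Q : ℝ)
    (hVu : ∀ u, u ∈ X 0 → u ∈ X 2 → u ∉ X 1 → ∃ n : ℤ, u = V + 6 * n)
    (hQu : ∀ u, u ∈ X 1 → u ∈ X 3 → u ∉ X 0 → ∃ n : ℤ, u = Q + 6 * n) : False :=
  (rawP_of_preW R).L2x hi2 hi3 V Q hVu hQu

/-- **L2** for `H350.Pre`, special positions not counted -/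
theorem L2x (R : H350.Pre X) (hi2 : ∀ u ∈ X 2, ∃ᶠ v in 𝓝[≠] u, v ∈ X 2)
    (hi3 : ∀ u ∈ X 3, ∃ᶠ v in 𝓝[≠] u, v ∈ X 3) (V Q : ℝ)
    (hVu : ∀ u, u ∈ X 0 → u ∈ X 2 → u ∉ X 1 → ∃ n : ℤ, u = V + 6 * n)
    (hQu : ∀ u, u ∈ X 1 → u ∈ X 3 → u ∉ X 0 → ∃ n : ℤ, u = Q + 6 * n) : False :=
  (rawP_of_pre R).L2x hi2 hi3 V Q hVu hQu

end Vale.Agent.P032.H361
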